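import Vale.Agent.P236Z.Mod.Defs
import Vale.Agent.P251.M.MUInv
import Vale.Agent.P251.M.CobDec
import Vale.Agent.P251.S.AmitsurCup

/-!
# P236, block MOD: strict isomorphisms between orientations, closure properties of `Gen`
-/

open CategoryTheory MonoidalCategory Limits Pretriangulated
open Vale.Agent.P251 Vale.Agent.P251.T Vale.Agent.P251.M Vale.Agent.P251.S Vale.Agent.P251.F
  Vale.Agent.P251.I Vale.Agent.P251.X Vale.Agent.P236Z.Cat

set_option linter.unusedSectionVars false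

universe v u

noncomputable section
namespace Vale.Agent.P236Z.Mod

section T0

variable {T : Type u} [Category.{v} T] [Preadditive T] [HasZeroObject T]
    [HasShift T ℤ] [∀ n : ℤ, (shiftFunctor T n).Additive] [Pretriangulated T] [IsTriangulated T]
    [MonoidalCategory T] [SymmetricCategory T] [TensorTriangulated T] [MonoidalClosed T]
    [HasCoproducts.{0} T] [HasProducts.{0} T] [StableCat T]
    {N N' : T} [MonObj N] [IsCommMonObj N] [MonObj N'] [IsCommMonObj N']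

section pair

variable {R : T} [MonObj R] (a b : R ⟶ N) [IsMonHom a] [IsMonHom b]

@[reassoc]
theorem v0_pair : Am.v R (0 : Fin 2) ≫ pair a b = a := by
  have h : Am.v R (0 : Fin 2) = Am.v R (0 : Fin 1) ≫ inlM (Am R 1) R := Am.v_castSucc R (0 : Fin 1)
  rw [h, Category.assoc, pair, inlM_descM, ← Category.assoc, v_amOne, Category.id_comp]

@[reassoc]
theorem v1_pair : Am.v R (1 : Fin 2) ≫ pair a b = b := by
  have h : Am.v R (1 : Fin 2) = inrM (Am R 1) R := Am.v_last R 1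
  rw [h, pair, inrM_descM]

theorem eq_pair (g : Am R 2 ⟶ N) [IsMonHom g] (h0 : Am.v R (0 : Fin 2) ≫ g = a)
    (h1 : Am.v R (1 : Fin 2) ≫ g = b) : g = pair a b :=
  Am.hom_ext (Fin.forall_fin_two.2 ⟨h0.trans (v0_pair a b).symm, h1.trans (v1_pair a b).symm⟩)

theorem pair_comp (f : N ⟶ N') [IsMonHom f] : pair a b ≫ f = pair (a ≫ f) (b ≫ f) :=
  eq_pair _ _ _ (v0_pair_assoc a b f) (v1_pair_assoc a b f)

end pair

variable (D : MUData T) (a b c : D.R ⟶ N) [IsMonHom a] [IsMonHom b] [IsMonHom c]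

theorem sIso_c0 : (sIso D a b).c 0 = 1 := by
  rw [sIso, InvSeries.c_map, D.strictIso_c, map_one]

theorem sIso_smul : sIso D a b • lawOf a = lawOf b := by
  have h1 := congrArg (Law.map (HRing.map (E := stdEven T) (pair a b))) D.strictIso_smul
  rwa [InvSeries.map_smul, Law.map_map, Law.map_map, ← HRing.map_comp, ← HRing.map_comp,
    HRing_map_congr (v0_pair a b), HRing_map_congr (v1_pair a b)] at h1

theorem sIso_map (f : N ⟶ N') [IsMonHom f] :
    InvSeries.map (HRing.map f) (sIso D a b) = sIso D (a ≫ f) (b ≫ f) := by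
  rw [sIso, InvSeries.map_map, ← HRing.map_comp, HRing_map_congr (pair_comp a b f), sIso]

variable {a b} in
theorem sIso_congr {a' b' : D.R ⟶ N} [IsMonHom a'] [IsMonHom b'] (ha : a = a') (hb : b = b') :
    sIso D a b = sIso D a' b' := by
  subst ha hb
  rfl

theorem sIso_eq {n : ℕ} (f : Fin (n + 1) → (D.R ⟶ N)) [∀ i, IsMonHom (f i)] :
    ∃ G : Fin (n + 1) → InvSeries (HRing (stdEven T) N),
      ∀ i j, sIso D (f i) (f j) = G j * (G i)⁻¹ := by
  refine ⟨fun i => InvSeries.map ((HRing.map (Am.lift f)).comp (D.ev n)) ((Cob.univ Laz n).g i),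
    fun i j => ?_⟩
  have h1 : Am.map D.R ![i, j] ≫ Am.lift f = pair (f i) (f j) :=
    eq_pair _ _ _ (by rw [Am.v_map_assoc, Am.v_lift]; rfl) (by rw [Am.v_map_assoc, Am.v_lift]; rfl)
  have h2 : (HRing.map (E := stdEven T) (Am.map D.R ![i, j])).comp (D.ev 1) =
      (D.ev n).comp (Cob.map ![i, j]) := RingHom.ext (D.ev_map 1 n ![i, j])
  have h3 : InvSeries.map (Cob.map (N := Laz) ![i, j]) ((Cob.univ Laz 1).g 1) =
      (Cob.univ Laz n).g j * ((Cob.univ Laz n).g i)⁻¹ :=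
    congrArg (fun c => Chain.g c 1) (Cob.univ_map_ev ((Cob.univ Laz n).res ![i, j]))
  rw [sIso, ← HRing_map_congr h1, HRing.map_comp, MUData.strictIso, InvSeries.map_map,
    RingHom.comp_assoc, h2, ← RingHom.comp_assoc, ← InvSeries.map_map, h3, map_mul, map_inv]

theorem sIso_mul : sIso D b c * sIso D a b = sIso D a c := by
  have : ∀ i, IsMonHom (![a, b, c] i) := fun i => by fin_cases i <;> assumption
  obtain ⟨G, h⟩ := sIso_eq D ![a, b, c]
  refine (congrArg₂ (· * ·) (h 1 2) (h 0 1)).trans (Eq.trans ?_ (h 0 2).symm)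
  rw [mul_assoc, inv_mul_cancel_left]

theorem sIso_self : sIso D a a = 1 := mul_eq_left.1 (sIso_mul D a a a)

theorem sIso_hom (n : ℕ) : ∃ x : (stdEven T).S n ⟶ N, (sIso D a b).c n = HRing.of _ N n x := by
  rcases n with _ | n
  · exact ⟨_, (sIso_c0 D a b).trans of_one.symm⟩
  · obtain ⟨x, hx⟩ := D.ev_wt 1 _ _ (Cob.isWt_X (N := Laz) (0 : Fin 1) n)
    have h : (Cob.univ Laz 1).g 1 = strictMk fun m => MvPolynomial.X (0, m) :=
      Cob.univ_g_succ (0 : Fin 1)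
    refine ⟨x ≫ pair a b, ?_⟩
    rw [sIso, InvSeries.c_map, MUData.strictIso, InvSeries.c_map, h, c_succ_strictMk, hx,
      HRing.map_of]

/-! ### the closure properties of `Gen` -/

theorem Gen.odd_iso {X Y : T} (e : X ≅ Y) (h : Odd0 X) : Odd0 Y := fun l f => by
  rw [← cancel_mono e.inv, h l (f ≫ e.inv), zero_comp]

theorem Gen.top_iso (e : N ≅ N') [IsMonHom e.hom] (S : Subring (HRing (stdEven T) N'))
    (h : ∀ x, HRing.map e.hom x ∈ S) : S = ⊤ :=
  (Subring.eq_top_iff' S).2 fun x => by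
    have := h (HRing.map e.inv x)
    rwa [← RingHom.comp_apply, ← HRing.map_comp, HRing_map_congr e.inv_hom_id, HRing.map_id,
      RingHom.id_apply] at this

variable {D} {K E W W' : T} [MonObj K] [MonObj E] [MonObj W] [IsCommMonObj W] [MonObj W']
  [IsCommMonObj W'] {φ : D.R ⟶ K} [IsMonHom φ] {uE : D.R ⟶ E} [IsMonHom uE] {ι ι' κ : Type}
  {j : ι → (E ⟶ W)} [∀ i, IsMonHom (j i)]

theorem Gen.push (h : Gen D φ uE j) {A : T} [MonObj A] [IsCommMonObj A] (k : K ⟶ A) [IsMonHom k]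
    (hA : Odd0 A) (g : A ⊗ W ⟶ N) [IsMonHom g] (S : Subring (HRing (stdEven T) N)) (p : A ⟶ N)
    [IsMonHom p] (hp : inlM A W ≫ g = p) (h1 : ∀ x, HRing.map p x ∈ S) (q : D.R ⟶ N) [IsMonHom q]
    (hq : φ ≫ k ≫ p = q) (h2 : ∀ i, ∃ (w : E ⟶ N) (_ : IsMonHom w), j i ≫ inrM A W ≫ g = w ∧
      (∀ x, HRing.map w x ∈ S) ∧ ∀ n, (sIso D q (uE ≫ w)).c n ∈ S) (x : HRing (stdEven T) (A ⊗ W)) :
    HRing.map g x ∈ S := by
  subst hp hq
  refine ((h A k hA).2 (S.comap (HRing.map g)) (fun x => ?_) (fun i x => ?_) fun i n => ?_).ge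
    (Subring.mem_top x)
  · rw [Subring.mem_comap, ← RingHom.comp_apply, ← HRing.map_comp]
    exact h1 x
  · obtain ⟨_, _, rfl, h3, -⟩ := h2 i
    rw [Subring.mem_comap, ← RingHom.comp_apply, ← HRing.map_comp,
      HRing_map_congr (Category.assoc _ _ _)]
    exact h3 x
  · obtain ⟨_, _, rfl, -, h3⟩ := h2 i
    rw [Subring.mem_comap, ← InvSeries.c_map, sIso_map,
      sIso_congr D (a' := φ ≫ k ≫ inlM A W ≫ g) (b' := uE ≫ j i ≫ inrM A W ≫ g)
        (by simp only [Category.assoc]) (by simp only [Category.assoc])]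
    exact h3 n

theorem Gen.of_iso (e : W ≅ W') [IsMonHom e.hom] (j' : κ → (E ⟶ W')) [∀ i, IsMonHom (j' i)]
    (h : ∀ i, ∃ k, j' k = j i ≫ e.hom) (hG : Gen D φ uE j) : Gen D φ uE j' := by
  intro A _ _ k _ hA
  have : IsMonHom (whiskerLeftIso A e).hom := inferInstanceAs (IsMonHom (A ◁ e.hom))
  refine ⟨Gen.odd_iso (whiskerLeftIso A e) (hG A k hA).1, fun S s1 s2 s3 =>
    Gen.top_iso (whiskerLeftIso A e) S (hG.push k hA _ S _ (inlM_whiskerLeft e.hom) s1 _ rfl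
      fun i => ?_)⟩
  obtain ⟨l, hl⟩ := h i
  exact ⟨_, _, by rw [hl, Category.assoc, ← inrM_whiskerLeft]; rfl, s2 l, s3 l⟩

theorem Gen.mono (j' : κ → (E ⟶ W)) [∀ i, IsMonHom (j' i)] (h : ∀ i, ∃ k, j' k = j i)
    (hG : Gen D φ uE j) : Gen D φ uE j' :=
  have : IsMonHom (Iso.refl W).hom := inferInstanceAs (IsMonHom (𝟙 W))
  hG.of_iso (Iso.refl W) j' fun i => (h i).imp fun _ k => k.trans (Category.comp_id _).symm

theorem Gen.tensor {j₂ : ι' → (E ⟶ W')} [∀ i, IsMonHom (j₂ i)] (h1 : Gen D φ uE j)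
    (h2 : Gen D φ uE j₂) (j' : κ → (E ⟶ W ⊗ W')) [∀ i, IsMonHom (j' i)]
    (hl : ∀ i, ∃ k, j' k = j i ≫ inlM W W') (hr : ∀ i, ∃ k, j' k = j₂ i ≫ inrM W W') :
    Gen D φ uE j' := by
  intro A _ _ k _ hA
  have hB := (h1 A k hA).1
  refine ⟨Gen.odd_iso (α_ A W W') (h2 _ (k ≫ inlM A W) hB).1, fun S s1 s2 s3 =>
    Gen.top_iso (α_ A W W') S (h2.push (k ≫ inlM A W) hB _ S _ (inlM_associator A W W')
      (h1.push k hA _ S _ (inlM_whiskerLeft _) s1 _ rfl fun i => ?_) (φ ≫ k ≫ inlM A (W ⊗ W'))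
      (by rw [Category.assoc, inlM_whiskerLeft]) fun i => ?_)⟩
  · obtain ⟨l, hl⟩ := hl i
    exact ⟨_, _, by rw [hl, Category.assoc, inrM_whiskerLeft], s2 l, s3 l⟩
  · obtain ⟨l, hl⟩ := hr i
    exact ⟨_, _, by rw [hl, Category.assoc, inrM_associator], s2 l, s3 l⟩

end T0

section cop

variable {T : Type 1} [Category.{0} T] [Preadditive T] [HasZeroObject T]
    [HasShift T ℤ] [∀ n : ℤ, (shiftFunctor T n).Additive] [Pretriangulated T] [IsTriangulated T]
    [MonoidalCategory T] [SymmetricCategory T] [TensorTriangulated T] [MonoidalClosed T]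
    [HasCoproducts.{0} T] [HasProducts.{0} T] [StableCat T] {D : MUData T}
    {K E A P : T} [MonObj K] [MonObj E] [MonObj A] [IsCommMonObj A] [MonObj P] [IsCommMonObj P]
    {φ : D.R ⟶ K} [IsMonHom φ] {uE : D.R ⟶ E} [IsMonHom uE] {ι κ : Type}
    {j : ι → (E ⟶ A)} [∀ i, IsMonHom (j i)] {i₀ i₁ i₂ : A ⟶ P}

theorem Gen.mul3_desc (i₀ i₁ i₂ : A ⟶ P) :
    (i₀ ⊗ₘ i₁ ⊗ₘ i₂) ≫ Step.mul3 P = descM i₀ (descM i₁ i₂) := by
  rw [Step.mul3, descM, descM, ← id_tensorHom, tensorHom_comp_tensorHom_assoc, Category.comp_id]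

theorem Gen.cop3 (hc : IsCop3 i₀ i₁ i₂) (h : Gen D φ uE j) (j' : κ → (E ⟶ P))
    [∀ i, IsMonHom (j' i)] (h0 : ∀ i, ∃ k, j' k = j i ≫ i₀) (h1 : ∀ i, ∃ k, j' k = j i ≫ i₁)
    (h2 : ∀ i, ∃ k, j' k = j i ≫ i₂) : Gen D φ uE j' := by
  have := hc.m₀
  have := hc.m₁
  have := hc.m₂
  have : IsIso (descM i₀ (descM i₁ i₂)) := Gen.mul3_desc i₀ i₁ i₂ ▸ hc.iso
  let e := asIso (descM i₀ (descM i₁ i₂))
  have : IsMonHom e.hom := inferInstanceAs (IsMonHom (descM i₀ (descM i₁ i₂)))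
  let j₂ : ι ⊕ ι → (E ⟶ A ⊗ A) := Sum.elim (fun i => j i ≫ inlM A A) fun i => j i ≫ inrM A A
  have : ∀ i, IsMonHom (j₂ i) := by
    rintro (i | i) <;> exact inferInstanceAs (IsMonHom (j i ≫ _))
  have l0 : inlM A (A ⊗ A) ≫ e.hom = i₀ := inlM_descM _ _
  have l1 : inrM A (A ⊗ A) ≫ e.hom = descM i₁ i₂ := inrM_descM _ _
  refine (h.tensor (h.tensor h j₂ (fun i => ⟨.inl i, rfl⟩) fun i => ⟨.inr i, rfl⟩)
    (fun k => j' k ≫ e.inv) (fun i => (h0 i).imp fun k hk => ?_) ?_).of_iso e j' fun k =>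
      ⟨k, by rw [Category.assoc, e.inv_hom_id, Category.comp_id]⟩
  · rw [Iso.comp_inv_eq, Category.assoc, l0, hk]
  · rintro (i | i)
    · refine (h1 i).imp fun k hk => ?_
      rw [Iso.comp_inv_eq, Category.assoc, l1, hk]
      exact ((Category.assoc _ _ _).trans (congrArg _ (inlM_descM _ _))).symm
    · refine (h2 i).imp fun k hk => ?_
      rw [Iso.comp_inv_eq, Category.assoc, l1, hk]
      exact ((Category.assoc _ _ _).trans (congrArg _ (inrM_descM _ _))).symm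

end cop

end Vale.Agent.P236Z.Mod
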