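import Vale.Agent.P236Z.Cat.Api0
import Vale.Agent.P251.X.Defs
import Vale.Agent.P251.S.Amitsur
import Vale.Agent.P251.S.Scal
import Vale.Agent.P251.S.Loc

/-!
# P236, block MOD (second half): the equivariant model of a ring spectrum with an action of `C₉`

`EDat D` : the non-equivariant input (a commutative ring spectrum `E` over `MU` with an automorphism
`ρ` of order nine).  `XDat W E ρ` : the output, an object `X` of the category of Borel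
`C₉`-spectra with underlying object `E`, a commutative unital pairing and norm maps.
-/

open CategoryTheory MonoidalCategory Limits Pretriangulated
open Functor.LaxMonoidal Functor.OplaxMonoidal
open Vale.Agent.P251 Vale.Agent.P251.T Vale.Agent.P251.M Vale.Agent.P251.S Vale.Agent.P251.F
  Vale.Agent.P251.I Vale.Agent.P251.X Vale.Agent.P236Z.Cat
open scoped CategoryTheory.Obj

universe v u

noncomputable section
namespace Vale.Agent.P236Z.Mod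

section T0

variable {T : Type u} [Category.{v} T] [Preadditive T] [HasZeroObject T]
    [HasShift T ℤ] [∀ n : ℤ, (shiftFunctor T n).Additive] [Pretriangulated T] [IsTriangulated T]
    [MonoidalCategory T] [SymmetricCategory T] [TensorTriangulated T] [MonoidalClosed T]
    [HasCoproducts.{0} T] [HasProducts.{0} T] [StableCat T]

/-- the homomorphism `R ⊗ R ⟶ N` with components `a`, `b` -/
def pair {R N : T} [MonObj R] [MonObj N] (a b : R ⟶ N) : Am R 2 ⟶ N := descM (amOne R ≫ a) b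

instance {R N : T} [MonObj R] [MonObj N] [IsCommMonObj N] (a b : R ⟶ N) [IsMonHom a]
    [IsMonHom b] : IsMonHom (pair a b) := inferInstanceAs (IsMonHom (descM (amOne R ≫ a) b))

variable (D : MUData T)

/-- the strict isomorphism from the law of the orientation `a` to the law of `b` -/
def sIso {N : T} [MonObj N] [IsCommMonObj N] (a b : D.R ⟶ N) [IsMonHom a] [IsMonHom b] :
    InvSeries (HRing (stdEven T) N) :=
  InvSeries.map (HRing.map (pair a b)) D.strictIso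

/-- For every even ring `A` under `K` the ring `A ⊗ W` is even and its homotopy ring is generated by
the homotopy of `A`, the images of the homotopy of `E` under the `j i`, and the coefficients of the
strict isomorphisms from the orientation of `K` to the orientations `uE ≫ j i`. -/
def Gen {K E W : T} [MonObj K] [MonObj E] [MonObj W] [IsCommMonObj W] (φ : D.R ⟶ K) [IsMonHom φ]
    (uE : D.R ⟶ E) [IsMonHom uE] {ι : Type} (j : ι → (E ⟶ W)) [∀ i, IsMonHom (j i)] : Prop :=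
  ∀ (A : T) [MonObj A] [IsCommMonObj A] (κ : K ⟶ A) [IsMonHom κ], Odd0 A →
    Odd0 (A ⊗ W) ∧ ∀ S : Subring (HRing (stdEven T) (A ⊗ W)),
      (∀ x, HRing.map (inlM A W) x ∈ S) → (∀ i x, HRing.map (j i ≫ inrM A W) x ∈ S) →
      (∀ i n, (sIso D (φ ≫ κ ≫ inlM A W) (uE ≫ j i ≫ inrM A W)).c n ∈ S) → S = ⊤

/-- The non-equivariant input. -/
structure EDat where
  /-- the ring spectrum -/
  E : T
  [mon : MonObj E]
  [comm : IsCommMonObj E]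
  /-- the orientation -/
  uE : D.R ⟶ E
  [uE_hom : IsMonHom uE]
  /-- the automorphism -/
  ρ : E ⟶ E
  [ρ_hom : IsMonHom ρ]
  ρ9 : (ρ ≫ ρ ≫ ρ) ≫ (ρ ≫ ρ ≫ ρ) ≫ (ρ ≫ ρ ≫ ρ) = 𝟙 E
  /-- the Morava `K`-theory -/
  K : KD D 3 6
  loc : IsLocal K.K E
  gen : Gen D K.φ uE (fun _ : Unit => 𝟙 E)
  /-- the periodicity class -/
  U : (HRing (stdEven T) E)ˣ
  U_hom : ∃ (d : ℤ) (a : (stdEven T).S d ⟶ E), U.val = HRing.of _ E d a
  int : ∀ (n : ℤ) (x : (stdEven T).S n ⟶ E), ∃ c k : ℤ,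
    HRing.of _ E n x - c * (U ^ k).val ∈ Ih 3 6 (lawOf uE)
  v6 : ∃ (c : ℤ) (N : ℕ), ¬ 3 ∣ N ∧ vv 3 6 (lawOf uE) - c * U.val ^ N ∈ Ih 3 6 (lawOf uE)
  v6_unit : IsUnit (vv 3 6 (lawOf uE))
  ρU : HRing.map ρ U.val - U.val ∈ Ih 3 6 (lawOf uE)
  unit : ∀ x : (stdEven T).S 0 ⟶ E, HRing.of _ E 0 x - 1 ∈ Ih 3 6 (lawOf uE) →
    IsUnit (HRing.of _ E 0 x)

attribute [instance] EDat.mon EDat.comm EDat.uE_hom EDat.ρ_hom

/-- The kernel of `m` in `K`-homology is killed by products of elements which `m` sends to units. -/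
def Loc (K : T) {W E : T} [MonObj W] [IsCommMonObj W] [MonObj E] [IsCommMonObj E] (m : W ⟶ E)
    [IsMonHom m] : Prop :=
  ∃ f : ℕ → Sc W, (∀ n, IsUnit (Sc.map m (f n))) ∧
    ∀ (k : ℤ) (x : (𝟙_ T)⟦k⟧ ⟶ K ⊗ W), x ≫ K ◁ m = 0 →
      ∃ F ∈ Submonoid.closure (Set.range f), x ≫ K ◁ (ModStr.self W).smul F.hom = 0

end T0

/-- `P` is the coproduct of three copies of the commutative ring `A` -/
structure IsCop3 {C : Type 1} [Category.{0} C] [MonoidalCategory C] {A P : C} [MonObj A] [MonObj P]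
    (i₀ i₁ i₂ : A ⟶ P) : Prop where
  m₀ : IsMonHom i₀
  m₁ : IsMonHom i₁
  m₂ : IsMonHom i₂
  iso : IsIso ((i₀ ⊗ₘ i₁ ⊗ₘ i₂) ≫ Step.mul3 P)

section Step

variable {T₀ : TTC} {F : I.SpaceFunctor T₀.C} {T T' : TTC} {K : Type 1} [Category.{0} K]
  [MonoidalCategory K] [SymmetricCategory K] {tK : Tw K} {u : K ⥤ I.FCat} {v : I.FCat ⥤ K}
  [v.Braided] {hv : ∀ X, (tK.h (v.obj X)).hom = 𝟙 _} {L : Lvl T₀ F T tK u v}
  {L' : Lvl T₀ F T' (Rt.tw tK) (Rt.U tK ⋙ u) (Rt.triv v hv)} (s : Step L L')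

/-- the inclusion of the first factor of `U N A = A ⊗ A ⊗ A` -/
def in0 (A : T.C) [MonObj A] : A ⟶ s.U.F.obj (s.N.obj A) := inlM A (A ⊗ A) ≫ s.ν.inv.app A

end Step

variable (W : Tower)

/-- The equivariant model `X` of `E` with the action `ρ`. -/
structure XDat (E : W.T₀.C) [MonObj E] (ρ : E ⟶ E) where
  /-- the `C₉`-spectrum -/
  X : W.T₂.C
  /-- the unit -/
  one : 𝟙_ W.T₂.C ⟶ X
  /-- the pairing (associative only on the underlying spectrum) -/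
  mul : X ⊗ X ⟶ X
  one_mul : one ▷ X ≫ mul = (λ_ X).hom
  comm : (β_ X X).hom ≫ mul = mul
  /-- the underlying spectrum -/
  e : W.s₁.U.F.obj (W.s₂.U.F.obj X) ≅ E
  e_one : ε W.s₁.U.F ≫ W.s₁.U.F.map (ε W.s₂.U.F ≫ W.s₂.U.F.map one) ≫ e.hom = MonObj.one
  e_mul : μ W.s₁.U.F _ _ ≫ W.s₁.U.F.map (μ W.s₂.U.F X X ≫ W.s₂.U.F.map mul) ≫ e.hom =
    (e.hom ⊗ₘ e.hom) ≫ MonObj.mul
  e_h : W.s₁.U.F.map (W.s₂.γ X) ≫ e.hom = e.hom ≫ ρ
  /-- the map from the norm of `E` -/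
  ι : W.s₂.N.obj (W.s₁.N.obj E) ⟶ X
  ι_one : MonObj.one ≫ ι = one
  ι_mul : (ι ⊗ₘ ι) ≫ mul = MonObj.mul ≫ ι
  ι_e : in0 W.s₁ E ≫ W.s₁.U.F.map (in0 W.s₂ (W.s₁.N.obj E) ≫ W.s₂.U.F.map ι) ≫ e.hom = 𝟙 E
  /-- the norm map `in0 ≫ U ι : N E ⟶ U X` from the trivial group to `C₃` is equivariant -/
  nm₁_conj : W.s₁.N.map ρ ≫ in0 W.s₂ (W.s₁.N.obj E) ≫ W.s₂.U.F.map ι =
    in0 W.s₂ (W.s₁.N.obj E) ≫ W.s₂.U.F.map ι ≫ W.s₂.γ X
  nm₁_res : W.s₁.U.F.map (in0 W.s₂ (W.s₁.N.obj E) ≫ W.s₂.U.F.map ι) ≫ e.hom =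
    W.s₁.ν.hom.app E ≫ (𝟙 E ⊗ₘ (ρ ≫ ρ ≫ ρ) ⊗ₘ ((ρ ≫ ρ ≫ ρ) ≫ (ρ ≫ ρ ≫ ρ))) ≫ Step.mul3 E
  /-- the norm map from `C₃` to `C₉` -/
  nm₂ : W.s₂.N.obj (W.s₂.U.F.obj X) ⟶ X
  nm₂_ι : W.s₂.N.map (W.s₂.U.F.map ι) ≫ nm₂ = W.s₂.nmN (W.s₁.N.obj E) ≫ ι
  nm₂_res : W.s₁.U.F.map (W.s₂.U.F.map nm₂) ≫ e.hom =
    W.s₁.U.F.map (W.s₂.ν.hom.app (W.s₂.U.F.obj X)) ≫ δ W.s₁.U.F _ _ ≫ _ ◁ δ W.s₁.U.F _ _ ≫
      (e.hom ⊗ₘ (e.hom ≫ ρ) ⊗ₘ (e.hom ≫ ρ ≫ ρ)) ≫ Step.mul3 E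

/-- **MODX** -/
def MODX : Prop :=
  ∀ (W : Tower) (D : MUData W.T₀.C) (P : EDat D), Nonempty (XDat W P.E P.ρ)

/-- a strict automorphism of a law of height `h` -/
def AUT : Prop :=
  ∀ (B : Type) [CommRing B] (p h : ℕ) [Fact p.Prime] (F : Law B) (a : InvSeries B) (n : ℕ),
    0 < h → (∀ i < h, vv p i F = 0) → a • F = F → a.c 0 = 1 → 0 < n →
    (∀ k, 0 < k → k < n → a.c k = 0) →
    a.c n * vv p h F ^ (n + 1) = vv p h F * a.c n ^ (p ^ h)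

end Vale.Agent.P236Z.Mod
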