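import Vale.Agent.P251.F.Inv

/-!
# P236, block MOD: strict automorphisms of a law of height `h`
-/

set_option linter.all false

open PowerSeries Vale.Agent.P217 Vale.Agent.P251 Vale.Agent.P251.F

namespace Vale.Agent.P236Z.Mod

namespace Aut

variable {B : Type*} [CommRing B]

theorem pow_c {n d : ℕ} (r : B⟦X⟧) (hd : d ≠ 1) :
    coeff (n + 1) ((X + X ^ (n + 1) * r) ^ d) = coeff (n + 1) (X ^ d : B⟦X⟧) := by
  rcases d.eq_zero_or_pos with rfl | h0
  · simp
  obtain ⟨w, hw⟩ := sub_dvd_pow_sub_pow (1 + X ^ n * r) 1 d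
  have e : (X + X ^ (n + 1) * r) ^ d = X ^ d + X ^ (d + n) * (r * w) := by
    rw [show X + X ^ (n + 1) * r = X * (1 + X ^ n * r) by ring, mul_pow, sub_eq_iff_eq_add.1 hw]
    ring
  rw [e, map_add, coeff_X_pow_mul', if_neg (by omega), add_zero]

theorem right {n : ℕ} (hn : 0 < n) (r g : B⟦X⟧) :
    coeff (n + 1) (subst (X + X ^ (n + 1) * r) g : B⟦X⟧) =
      coeff (n + 1) g + coeff 1 g * constantCoeff r := by
  rw [coeff_subst' (.of_constantCoeff_zero' (by simp)),
    finsum_eq_sum_of_support_subset (s := {1, n + 1}), Finset.sum_pair (by omega),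
    pow_c r (d := n + 1) (by omega), add_comm]
  · simp [coeff_X_pow_mul', coeff_X, hn.ne']
  · intro d hd
    by_contra k
    simp only [Finset.coe_insert, Finset.coe_singleton, Set.mem_insert_iff, Set.mem_singleton_iff,
      not_or] at k
    exact hd (by simp only [pow_c r k.1, coeff_X_pow, if_neg (Ne.symm k.2), smul_zero])

theorem left (n : ℕ) (r : B⟦X⟧) {V : B⟦X⟧} (hV : constantCoeff V = 0) :
    coeff (n + 1) (subst V (X + X ^ (n + 1) * r) : B⟦X⟧) =
      coeff (n + 1) V + constantCoeff r * coeff 1 V ^ (n + 1) := by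
  have hs : HasSubst V := .of_constantCoeff_zero' hV
  have h0 : constantCoeff (subst V r : B⟦X⟧) = constantCoeff r :=
    HT_constantCoeff_subst_of_zero (fun _ => hV) r
  rw [subst_add hs, subst_mul hs, subst_pow hs, subst_X hs, map_add]
  generalize (subst V r : B⟦X⟧) = s at h0
  obtain ⟨W, rfl⟩ := X_dvd_iff.2 hV
  rw [mul_pow, mul_assoc, coeff_X_pow_mul', if_pos le_rfl, Nat.sub_self, coeff_succ_X_mul (n := 0)]
  simp [h0, mul_comm]

end Aut

open Aut

theorem aut : ∀ (B : Type) [CommRing B] (p h : ℕ) [Fact p.Prime] (F : Law B) (a : InvSeries B)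
    (n : ℕ), 0 < h → (∀ i < h, vv p i F = 0) → a • F = F → a.c 0 = 1 → 0 < n →
    (∀ k, 0 < k → k < n → a.c k = 0) →
    a.c n * vv p h F ^ (n + 1) = vv p h F * a.c n ^ (p ^ h) := by
  intro B _ p h hp F a n hpos hF ha h1 hn h2
  rcases subsingleton_or_nontrivial B with hB | hB
  · exact Subsingleton.elim _ _
  have hp0 : (p : B) = 0 := by rw [← vv_zero p F]; exact hF 0 hpos
  have hchar : CharP B p := (CharP.charP_iff_prime_eq_zero hp.out).2 hp0
  have hq : p ^ h ≠ 0 := pow_ne_zero h hp.out.ne_zero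
  obtain ⟨V, hV, hV0, -⟩ := exists_height' p (isHom_multSeries F.toFG p) h hF
  have hX : HasSubst (X ^ p ^ h : B⟦X⟧) := .X_pow hq
  have hv : vv p h F = coeff 1 V := by
    rw [vv, hV, ← expand_apply _ hq, ← coeff_expand_mul _ hq V 1, mul_one]
  obtain ⟨r, hr⟩ : X ^ (n + 1) ∣ a.val - X := X_pow_dvd_iff.2 fun m hm => by
    rcases m with _ | _ | m
    · simp [a.cc]
    · exact (map_sub _ _ _).trans (sub_eq_zero.2 (h1.trans coeff_one_X.symm))
    · exact (map_sub _ _ _).trans (sub_eq_zero.2 ((h2 (m + 1) m.succ_pos (by omega)).trans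
        (by simp [coeff_X])))
  rw [sub_eq_iff_eq_add'] at hr
  have hc : a.c n = constantCoeff r := by
    simp [InvSeries.c, hr, coeff_X_pow_mul', coeff_X, hn.ne']
  set r' := map (iterateFrobenius B p h) r with hr'
  have hb : HasSubst (X + X ^ (n + 1) * r') := .of_constantCoeff_zero' (by simp)
  have e : a.val ^ p ^ h = subst (X ^ p ^ h : B⟦X⟧) (X + X ^ (n + 1) * r') := by
    have := MvPowerSeries.map_iterateFrobenius_expand p hp.out.ne_zero a.val h
    rw [← expand_apply _ hq, show X + X ^ (n + 1) * r' = map (iterateFrobenius B p h) a.val by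
      simp [hr, hr'], ← map_expand]
    exact this.symm
  have k := smul_multSeries a F p
  rw [ha, hV, ← subst_comp_subst_apply (hasSubst_of_cc hV0) hX, subst_comp_subst_apply hX a.hs,
    subst_pow a.hs, subst_X a.hs, e, ← subst_comp_subst_apply hb hX, ← expand_apply _ hq,
    ← expand_apply _ hq, hr] at k
  have k' := congrArg (coeff (p ^ h * (n + 1))) k
  rw [coeff_expand_mul, coeff_expand_mul, left n r hV0, right hn, add_right_inj] at k'
  rw [hv, hc, k', hr', ← coeff_zero_eq_constantCoeff_apply, coeff_map, iterateFrobenius_def,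
    coeff_zero_eq_constantCoeff_apply]

end Vale.Agent.P236Z.Mod
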