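import Vale.Agent.P236Z.Mod.Cop

/-!
# P236, block MOD: the telescope of the underlying ring, the folding map
-/

open CategoryTheory MonoidalCategory Limits Pretriangulated
open Vale.Agent.P251 Vale.Agent.P251.T Vale.Agent.P251.S Vale.Agent.P236Z.Cat

set_option linter.unusedSectionVars false

universe v u

noncomputable section
namespace Vale.Agent.P236Z.Mod

theorem IsCop3.fold {C : Type 1} [Category.{0} C] [MonoidalCategory C] [SymmetricCategory C]
    {A P E : C} [MonObj A] [MonObj P] [MonObj E] [IsCommMonObj P] [IsCommMonObj E] {i : A ⟶ P}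
    {g : P ⟶ P} [IsMonHom g] (h : IsCop3 i (i ≫ g) (i ≫ g ≫ g)) (t : A ⟶ A)
    (ht : i ≫ g ≫ g ≫ g = t ≫ i) (n : A ⟶ E) [IsMonHom n] (r : E ⟶ E) [IsMonHom r]
    (hn : t ≫ n = n ≫ r ≫ r ≫ r) : ∃ m : P ⟶ E, IsMonHom m ∧ i ≫ m = n ∧ g ≫ m = m ≫ r := by
  obtain ⟨m, hm, h0, h1, h2⟩ := h.exists_desc n (n ≫ r) (n ≫ r ≫ r)
  refine ⟨m, hm, h0, h.hom_ext ?_ ?_ ?_⟩
  · rw [reassoc_of% h0, ← h1, Category.assoc]
  · rw [← Category.assoc (i ≫ g) m, h1, Category.assoc, Category.assoc, ← h2, Category.assoc,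
      Category.assoc]
  · rw [← Category.assoc (i ≫ g ≫ g) m, h2, Category.assoc, Category.assoc, reassoc_of% ht, h0, hn,
      Category.assoc, Category.assoc]

section mb

variable {T : Type u} [Category.{v} T] [Preadditive T] [MonoidalCategory T] [SymmetricCategory T]
  [MonoidalPreadditive T] {R : T} [MonObj R] [IsCommMonObj R]

theorem mb_mul (a b : Sc R) : mb (a * b).hom = mb a.hom ≫ mb b.hom := ModStr.smul_mul' _ _ _

theorem mb_one : mb (1 : Sc R).hom = 𝟙 R := ModStr.smul_one _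

theorem isIso_mb {a : Sc R} (h : IsUnit a) : IsIso (mb a.hom) := by
  obtain ⟨a, rfl⟩ := h
  exact ⟨mb (a⁻¹ : (Sc R)ˣ).val.hom, by rw [← mb_mul, a.mul_inv, mb_one],
    by rw [← mb_mul, a.inv_mul, mb_one]⟩

theorem pr_mb (w : ℕ → Sc R) (n r : ℕ) :
    pr (fun n => mb (w n).hom) n r = mb (∏ k ∈ Finset.range r, w (n + k)).hom := by
  induction r with
  | zero => exact mb_one.symm
  | succ r ih =>
    rw [Finset.prod_range_succ, mb_mul, ← ih]
    rfl

end mb

theorem dvd_prod_of_closure {B : Type*} [CommMonoid B] {f w : ℕ → B}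
    (h : ∀ n k, k ≤ n → f k ∣ w n) {F : B} (hF : F ∈ Submonoid.closure (Set.range f)) (n : ℕ) :
    ∃ r, F ∣ ∏ k ∈ Finset.range r, w (n + k) := by
  induction hF using Submonoid.closure_induction generalizing n with
  | mem x hx =>
    obtain ⟨k, rfl⟩ := hx
    exact ⟨k + 1, (h (n + k) k (Nat.le_add_left k n)).trans
      (Finset.dvd_prod_of_mem _ (Finset.self_mem_range_succ k))⟩
  | one => exact ⟨0, one_dvd _⟩
  | mul x y _ _ hx hy =>
    obtain ⟨r, hr⟩ := hx n
    obtain ⟨s, hs⟩ := hy (n + r)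
    refine ⟨r + s, ?_⟩
    rw [Finset.prod_range_add]
    simp only [← Nat.add_assoc]
    exact mul_dvd_mul hr hs

variable {T : Type u} [Category.{v} T] [Preadditive T] [HasZeroObject T]
    [HasShift T ℤ] [∀ n : ℤ, (shiftFunctor T n).Additive] [Pretriangulated T] [IsTriangulated T]
    [MonoidalCategory T] [SymmetricCategory T] [TensorTriangulated T] [MonoidalClosed T]
    [HasCoproducts.{0} T] [HasProducts.{0} T] [StableCat T]

theorem kcol_of_loc {K W E : T} [MonObj W] [IsCommMonObj W] [MonObj E] [IsCommMonObj E]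
    (m : W ⟶ E) [IsMonHom m] (hs : ∃ s : E ⟶ W, s ≫ m = 𝟙 E) {f : ℕ → Sc W}
    (hf : ∀ (k : ℤ) (x : (𝟙_ T)⟦k⟧ ⟶ K ⊗ W), x ≫ K ◁ m = 0 →
      ∃ F ∈ Submonoid.closure (Set.range f), x ≫ K ◁ (ModStr.self W).smul F.hom = 0)
    (w : ℕ → Sc W) (hw : ∀ n k, k ≤ n → f k ∣ w n) (hu : ∀ n, IsUnit (Sc.map m (w n))) :
    ∃ p : ℕ → (W ⟶ E), p 0 = m ∧ KCol K (fun n => mb (w n).hom) p := by
  choose u hu using hu
  let q : ℕ → Sc E := fun n => ((∏ k ∈ Finset.range n, u k)⁻¹ : (Sc E)ˣ).val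
  have h0 : m ≫ mb (q 0).hom = m := by
    have : q 0 = 1 := by simp [q]
    rw [this, mb_one, Category.comp_id]
  refine ⟨fun n => m ≫ mb (q n).hom, h0, KCol.mk' (fun n => ?_) (by rw [h0]; exact hs)
    fun k n x hx => ?_⟩
  · have h1 : q n = Sc.map m (w n) * q (n + 1) := by
      rw [← hu]
      simp only [q, Finset.prod_range_succ, mul_inv_rev, Units.val_mul, Units.mul_inv_cancel_left]
    rw [← Category.assoc, mb_comp, h1, mb_mul, Category.assoc]
    rfl
  · have := isIso_mb (a := q n) (Units.isUnit _)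
    rw [whiskerLeft_comp, ← Category.assoc, Preadditive.IsIso.comp_right_eq_zero] at hx
    obtain ⟨F, hF, h1⟩ := hf k x hx
    obtain ⟨r, c, hc⟩ := dvd_prod_of_closure hw hF n
    exact ⟨r, by rw [pr_mb, hc, mb_mul, whiskerLeft_comp, ← Category.assoc, h1, zero_comp]⟩

end Vale.Agent.P236Z.Mod
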