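import Vale.Agent.P236Z.Mod.Ext
import Vale.Agent.P251.S.AmitsurCup

/-!
# P236, block MOD: threefold coproducts of commutative rings, the restriction of a norm
-/

open CategoryTheory MonoidalCategory Limits Pretriangulated
open Functor.LaxMonoidal Functor.OplaxMonoidal
open Vale.Agent.P251 Vale.Agent.P251.T Vale.Agent.P251.S Vale.Agent.P236Z.Cat
open scoped CategoryTheory.Obj

set_option linter.unusedSectionVars false

noncomputable section
namespace Vale.Agent.P236Z.Mod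

section cop

variable {C : Type 1} [Category.{0} C] [MonoidalCategory C] [SymmetricCategory C]
  {C' : Type 1} [Category.{0} C'] [MonoidalCategory C'] [SymmetricCategory C']
  {A P Z : C} [MonObj A] [MonObj P] [MonObj Z]

theorem mul3_eq (f₀ f₁ f₂ : A ⟶ Z) :
    (f₀ ⊗ₘ f₁ ⊗ₘ f₂) ≫ Step.mul3 Z = descM f₀ (descM f₁ f₂) := by
  simp only [Step.mul3, descM, ← id_tensorHom, tensorHom_comp_tensorHom_assoc, Category.comp_id]

@[reassoc]
theorem mul3_comp (f : P ⟶ Z) [IsMonHom f] :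
    Step.mul3 P ≫ f = (f ⊗ₘ f ⊗ₘ f) ≫ Step.mul3 Z := by
  simp only [Step.mul3, Category.assoc, IsMonHom.mul_hom, ← id_tensorHom,
    tensorHom_comp_tensorHom_assoc, Category.comp_id, Category.id_comp]

@[reassoc]
theorem tens_mul3_comp (f₀ f₁ f₂ : A ⟶ P) (f : P ⟶ Z) [IsMonHom f] :
    (f₀ ⊗ₘ f₁ ⊗ₘ f₂) ≫ Step.mul3 P ≫ f = ((f₀ ≫ f) ⊗ₘ (f₁ ≫ f) ⊗ₘ (f₂ ≫ f)) ≫ Step.mul3 Z := by
  rw [mul3_comp, tensorHom_comp_tensorHom_assoc, tensorHom_comp_tensorHom]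

theorem map_mul3 (F : C ⥤ C') [F.Monoidal] (f₀ f₁ f₂ : A ⟶ P) :
    (F.map f₀ ⊗ₘ F.map f₁ ⊗ₘ F.map f₂) ≫ Step.mul3 (F.obj P) =
      F.obj A ◁ μ F A A ≫ μ F A (A ⊗ A) ≫ F.map ((f₀ ⊗ₘ f₁ ⊗ₘ f₂) ≫ Step.mul3 P) := by
  simp only [Step.mul3, Functor.obj.μ_def, F.map_comp, ← μ_natural_assoc, ← μ_natural_right_assoc]
  simp only [← id_tensorHom, tensorHom_comp_tensorHom_assoc, Category.comp_id, Category.id_comp,
    μ_natural_assoc]

namespace IsCop3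

variable {i₀ i₁ i₂ : A ⟶ P} (h : IsCop3 i₀ i₁ i₂)
include h

theorem hom_ext {f g : P ⟶ Z} [IsMonHom f] [IsMonHom g] (h₀ : i₀ ≫ f = i₀ ≫ g)
    (h₁ : i₁ ≫ f = i₁ ≫ g) (h₂ : i₂ ≫ f = i₂ ≫ g) : f = g := by
  have := h.iso
  rw [← cancel_epi ((i₀ ⊗ₘ i₁ ⊗ₘ i₂) ≫ Step.mul3 P), Category.assoc, Category.assoc,
    tens_mul3_comp, tens_mul3_comp, h₀, h₁, h₂]

theorem exists_desc [IsCommMonObj P] [IsCommMonObj Z] (f₀ f₁ f₂ : A ⟶ Z) [IsMonHom f₀]
    [IsMonHom f₁] [IsMonHom f₂] :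
    ∃ f : P ⟶ Z, IsMonHom f ∧ i₀ ≫ f = f₀ ∧ i₁ ≫ f = f₁ ∧ i₂ ≫ f = f₂ := by
  have := h.m₀
  have := h.m₁
  have := h.m₂
  have hi : IsIso (descM i₀ (descM i₁ i₂)) := by rw [← mul3_eq]; exact h.iso
  let e := asIso (descM i₀ (descM i₁ i₂))
  have he : IsMonHom e.hom := inferInstanceAs (IsMonHom (descM i₀ (descM i₁ i₂)))
  have h0 : i₀ = inlM A (A ⊗ A) ≫ e.hom := (inlM_descM _ _).symm
  have h1 : i₁ = inlM A A ≫ inrM A (A ⊗ A) ≫ e.hom := by
    change _ = _ ≫ _ ≫ descM _ _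
    rw [inrM_descM, inlM_descM]
  have h2 : i₂ = inrM A A ≫ inrM A (A ⊗ A) ≫ e.hom := by
    change _ = _ ≫ _ ≫ descM _ _
    rw [inrM_descM, inrM_descM]
  refine ⟨e.inv ≫ descM f₀ (descM f₁ f₂), inferInstance, ?_, ?_, ?_⟩
  · rw [h0, Category.assoc, e.hom_inv_id_assoc, inlM_descM]
  · rw [h1, Category.assoc, Category.assoc, e.hom_inv_id_assoc, inrM_descM, inlM_descM]
  · rw [h2, Category.assoc, Category.assoc, e.hom_inv_id_assoc, inrM_descM, inrM_descM]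

theorem map (F : C ⥤ C') [F.Monoidal] : IsCop3 (F.map i₀) (F.map i₁) (F.map i₂) := by
  have := h.m₀
  have := h.m₁
  have := h.m₂
  have := h.iso
  exact ⟨inferInstance, inferInstance, inferInstance, by rw [map_mul3]; infer_instance⟩

end IsCop3

theorem inl_braid (X Y : C) [MonObj X] [MonObj Y] : inlM X Y ≫ (β_ X Y).hom = inrM Y X := by
  simp [inlM, inrM]

theorem inl_rot (A : C) [MonObj A] : inlM A (A ⊗ A) ≫ rot A A A = inlM A A ≫ inrM A (A ⊗ A) := by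
  rw [rot, reassoc_of% inlM_associator_inv, inl_braid]

theorem inm_rot (A : C) [MonObj A] :
    inlM A A ≫ inrM A (A ⊗ A) ≫ rot A A A = inrM A A ≫ inrM A (A ⊗ A) := by
  rw [rot, reassoc_of% inrM_associator_inv, inlM_whiskerRight_assoc, inl_braid]

theorem inr_tw (t : Tw C) (A B : C) [MonObj A] :
    inrM A B ≫ ((t.h A).hom ⊗ₘ 𝟙 B) = inrM A B := by
  rw [inrM, Category.assoc, tensorHom_id, ← comp_whiskerRight, t.nat, t.one, Category.id_comp]

theorem tw_mon (t : Tw C) (A : C) [MonObj A] : IsMonHom (t.h A).hom where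
  one_hom := by rw [t.nat, t.one, Category.id_comp]
  mul_hom := by rw [t.nat, t.ten]

end cop

section Step

variable {T₀ : TTC} {F : I.SpaceFunctor T₀.C} {T T' : TTC} {K : Type 1} [Category.{0} K]
  [MonoidalCategory K] [SymmetricCategory K] {tK : Tw K} {u : K ⥤ I.FCat} {v : I.FCat ⥤ K}
  [v.Braided] {hv : ∀ X, (tK.h (v.obj X)).hom = 𝟙 _} {L : Lvl T₀ F T tK u v}
  {L' : Lvl T₀ F T' (Rt.tw tK) (Rt.U tK ⋙ u) (Rt.triv v hv)} (s : Step L L')

/-- the component of `ν` -/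
abbrev nu (A : T.C) : s.U.F.obj (s.N.obj A) ≅ A ⊗ A ⊗ A := s.ν.app A

@[reassoc]
theorem nu_nat {A B : T.C} (f : A ⟶ B) :
    s.U.F.map (s.N.map f) ≫ (nu s B).hom = (nu s A).hom ≫ (f ⊗ₘ f ⊗ₘ f) := s.ν.hom.naturality f

@[reassoc]
theorem nu_unit : ε s.U.F ≫ s.U.F.map (ε s.N) ≫ (nu s (𝟙_ T.C)).hom =
    (λ_ (𝟙_ T.C)).inv ≫ 𝟙_ T.C ◁ (λ_ (𝟙_ T.C)).inv := by
  have h := NatTrans.IsMonoidal.unit (τ := s.ν.hom)
  rw [cube_ε, Functor.LaxMonoidal.comp_ε, Category.assoc] at h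
  exact h

instance nu_mon (A : T.C) [MonObj A] : IsMonHom (nu s A).hom where
  one_hom := by
    rw [Functor.obj.η_def, Functor.obj.η_def, Functor.map_comp, Category.assoc, Category.assoc,
      nu_nat, nu_unit_assoc]
    simp only [MonObj.tensorObj.one_def, ← id_tensorHom, tensorHom_comp_tensorHom,
      Category.id_comp]
  mul_hom := by
    have h := NatTrans.IsMonoidal.tensor (τ := s.ν.hom) A A
    rw [cube_μ, Functor.LaxMonoidal.comp_μ, Category.assoc] at h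
    rw [Functor.obj.μ_def, Functor.obj.μ_def, Functor.map_comp, Category.assoc, Category.assoc,
      nu_nat]
    erw [reassoc_of% h]
    simp only [mix, MonObj.tensorObj.mul_def, ← id_tensorHom, tensorHom_comp_tensorHom,
      Category.id_comp, Category.assoc]
    rfl

instance (A : T.C) [MonObj A] : IsMonHom (in0 s A) :=
  inferInstanceAs (IsMonHom (inlM A (A ⊗ A) ≫ (nu s A).inv))

instance (X : T'.C) [MonObj X] : IsMonHom (s.γ X) :=
  have := tw_mon L'.t X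
  inferInstanceAs (IsMonHom (s.U.F.map (L'.t.h X).hom))

@[reassoc]
theorem γ_nat {X Y : T'.C} (f : X ⟶ Y) : s.U.F.map f ≫ s.γ Y = s.γ X ≫ s.U.F.map f := by
  rw [← s.U.F.map_comp, L'.t.nat, s.U.F.map_comp]

theorem γ_cube (X : T'.C) : s.γ X ≫ s.γ X ≫ s.γ X = (L.t.h (s.U.F.obj X)).hom := by
  rw [← s.cube_h, s.U.F.map_comp, s.U.F.map_comp]

@[reassoc]
theorem γ_nu (A : T.C) : s.γ (s.N.obj A) ≫ (nu s A).hom = (nu s A).hom ≫ L.t.rot A := s.ν_h A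

@[reassoc]
theorem in0_nu (A : T.C) [MonObj A] : in0 s A ≫ (nu s A).hom = inlM A (A ⊗ A) := by
  change (_ ≫ (nu s A).inv) ≫ _ = _
  rw [Category.assoc, Iso.inv_hom_id, Category.comp_id]

theorem in0_nat {A B : T.C} [MonObj A] [MonObj B] (f : A ⟶ B) [IsMonHom f] :
    in0 s A ≫ s.U.F.map (s.N.map f) = f ≫ in0 s B := by
  rw [← cancel_mono (nu s B).hom, Category.assoc, Category.assoc, nu_nat, in0_nu_assoc, in0_nu]
  simp only [inlM, Category.assoc]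
  rw [← id_tensorHom, tensorHom_comp_tensorHom, IsMonHom.one_hom, Category.id_comp,
    tensorHom_def, rightUnitor_inv_naturality_assoc]

theorem in0_mul3 (A : T.C) [MonObj A] [IsCommMonObj A] :
    (in0 s A ⊗ₘ (in0 s A ≫ s.γ _) ⊗ₘ (in0 s A ≫ s.γ _ ≫ s.γ _)) ≫ Step.mul3 _ = (nu s A).inv := by
  have h1 : inlM A (A ⊗ A) ≫ L.t.rot A = inlM A A ≫ inrM A (A ⊗ A) := by
    rw [Tw.rot, reassoc_of% inl_rot, id_tensorHom_id, inr_tw]
  have h2 : inlM A A ≫ inrM A (A ⊗ A) ≫ L.t.rot A = inrM A A ≫ inrM A (A ⊗ A) := by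
    rw [Tw.rot, reassoc_of% inm_rot, id_tensorHom_id, inr_tw]
  rw [← cancel_mono (nu s A).hom, Category.assoc, tens_mul3_comp, Iso.inv_hom_id]
  simp only [Category.assoc]
  rw [γ_nu, γ_nu_assoc, in0_nu_assoc, in0_nu_assoc, in0_nu, reassoc_of% h1, h1, h2, mul3_eq]
  refine hom_ext_tensor ?_ ?_
  · rw [inlM_descM, Category.comp_id]
  · rw [inrM_descM, Category.comp_id]
    exact hom_ext_tensor (inlM_descM _ _) (inrM_descM _ _)

theorem cop3_in0 (A : T.C) [MonObj A] [IsCommMonObj A] :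
    IsCop3 (in0 s A) (in0 s A ≫ s.γ _) (in0 s A ≫ s.γ _ ≫ s.γ _) :=
  ⟨inferInstance, inferInstance, inferInstance, by rw [in0_mul3]; infer_instance⟩

end Step

end Vale.Agent.P236Z.Mod
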