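import Vale.Agent.P236Z.Mod.Inj
import Vale.Agent.P236Z.Mod.Defs
import Vale.Agent.P251.H.BLoc

/-!
# P236, block MOD: localizations in the equivariant categories, extension over telescopes
-/

open CategoryTheory MonoidalCategory Limits Pretriangulated Opposite
open Functor.LaxMonoidal Functor.OplaxMonoidal
open Vale.Agent.P251 Vale.Agent.P251.T Vale.Agent.P251.S Vale.Agent.P236Z.Cat
open scoped CategoryTheory.Obj

set_option linter.unusedSectionVars false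

noncomputable section
namespace Vale.Agent.P236Z.Mod

section bloc

variable {T : TTC}

/-- `Hom(G, K ⊗ -)` -/
def ghom (K : T.C) : T.C ⥤ AddCommGrpCat.{0} := tensorLeft K ⋙ preadditiveCoyoneda.obj (op T.G)

instance (K : T.C) : (ghom K).IsHomological where
  map_zero X Y := by
    change (preadditiveCoyoneda.obj (op T.G)).map (K ◁ (0 : X ⟶ Y)) = 0
    rw [MonoidalPreadditive.whiskerLeft_zero, Functor.map_zero]
  exact Δ hΔ := by
    rw [ShortComplex.ab_exact_iff]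
    intro x hx
    obtain ⟨y, hy⟩ := Triangle.coyoneda_exact₂ _ (S.dist_whiskerLeft K hΔ) x hx
    exact ⟨y, hy.symm⟩

open H.BL in
theorem ghom_copGen (K : T.C) : CopGen (ghom K) := by
  intro I X x
  let e := PreservesCoproduct.iso (tensorLeft K) X
  have he : ∀ i, Sigma.ι (fun j => K ⊗ X j) i ≫ e.inv = K ◁ (Sigma.ι X i) := by
    intro i
    have := ι_comp_sigmaComparison (tensorLeft K) X i
    simpa [e, PreservesCoproduct.inv_hom] using this
  have h1 : H.BL.IsCpt T.G := (cpt_of_cpt T.cpt 0).of_iso ((shiftFunctorZero T.C ℤ).app T.G)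
  change T.G ⟶ K ⊗ ∐ X at x
  obtain ⟨s, hs⟩ := h1 (fun j => K ⊗ X j) (x ≫ e.hom)
  have h2 : x = ∑ i ∈ s, ((x ≫ e.hom) ≫ proj _ i) ≫ (K ◁ (Sigma.ι X i)) := by
    have h3 : x = (x ≫ e.hom) ≫ e.inv := by simp
    conv_lhs => rw [h3, hs, Preadditive.sum_comp]
    refine Finset.sum_congr rfl fun i _ => ?_
    rw [← he]
    simp only [Category.assoc]
    rfl
  rw [h2]
  refine AddSubgroup.sum_mem _ fun i _ => ?_
  exact AddSubgroup.mem_iSup_of_mem i ⟨(x ≫ e.hom) ≫ proj _ i, rfl⟩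

theorem ac_ghom (K A : T.C) : H.BL.Ac (ghom K) A ↔ Acyclic K A := by
  constructor
  · intro h
    refine T.gen _ fun n f => ?_
    have h1 := h (-n)
    let e : (K ⊗ (A⟦-n⟧)) ≅ (K ⊗ A)⟦-n⟧ := ((tensorLeft K).commShiftIso (-n)).app A
    let c : (T.G⟦n⟧)⟦-n⟧ ≅ T.G := (shiftFunctorCompIsoId T.C n (-n) (by simp)).app T.G
    have h2 : c.inv ≫ f⟦-n⟧' ≫ e.inv = 0 := h1 (c.inv ≫ f⟦-n⟧' ≫ e.inv)
    apply (shiftFunctor T.C (-n)).map_injective
    rw [Functor.map_zero, ← cancel_epi c.inv, ← cancel_mono e.inv, Category.assoc, h2]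
    simp
  · intro h n x
    exact IsZero.eq_of_tgt (h.shift n) _ _

theorem nonempty_bLoc (K X : T.C) : Nonempty (BLoc K X) := by
  obtain ⟨A, L, a, l, d, D, hA, hL⟩ := H.BL.exists_acyclization (H := ghom K) T.cpt T.gen
    (ghom_copGen K) (fun n => inferInstanceAs (Small.{0} (T.G ⟶ K ⊗ T.G⟦n⟧))) X
  rw [ac_ghom] at hA
  refine ⟨⟨L, l, ?_, fun W hW f => hL W ((ac_ghom K W).2 hW) f⟩⟩
  exact (Triangle.isZero₁_iff_isIso₂ _ (S.dist_whiskerLeft K D)).1 hA

end bloc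

/-- multiplication by an element -/
abbrev mb {C : Type*} [Category C] [MonoidalCategory C] {R : C} [MonObj R] (a : 𝟙_ C ⟶ R) :
    R ⟶ R := (ModStr.self R).smul a

section mb

variable {C : Type*} [Category C] [MonoidalCategory C] {C' : Type*} [Category C']
  [MonoidalCategory C'] {R R' : C} [MonObj R] [MonObj R']

theorem mb_comp (a : 𝟙_ C ⟶ R) (f : R ⟶ R') [IsMonHom f] : mb a ≫ f = f ≫ mb (a ≫ f) := by
  simp only [mb, ModStr.smul, ModStr.self, Category.assoc, IsMonHom.mul_hom, comp_whiskerRight]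
  rw [leftUnitor_inv_naturality_assoc, whisker_exchange_assoc, tensorHom_def'_assoc,
    whisker_exchange_assoc]

/-- the image of an element under a monoidal functor -/
def el (F : C ⥤ C') [F.LaxMonoidal] {R : C} (a : 𝟙_ C ⟶ R) : 𝟙_ C' ⟶ F.obj R := ε F ≫ F.map a

theorem map_mb (F : C ⥤ C') [F.Monoidal] (a : 𝟙_ C ⟶ R) : F.map (mb a) = mb (el F a) := by
  simp only [mb, ModStr.smul, ModStr.self, el, Functor.obj.μ_def, comp_whiskerRight,
    Category.assoc, μ_natural_left_assoc, left_unitality_inv_assoc, F.map_comp]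

theorem mb_tensor [BraidedCategory C] [IsCommMonObj R] (a b : 𝟙_ C ⟶ R) :
    (mb a ⊗ₘ mb b) ≫ MonObj.mul = MonObj.mul ≫ mb a ≫ mb b := by
  have h1 : ∀ a : 𝟙_ C ⟶ R, mb a ▷ R ≫ MonObj.mul = MonObj.mul ≫ mb a := fun a => by
    simp only [mb, ModStr.smul, ModStr.self, comp_whiskerRight, Category.assoc, MonObj.mul_assoc]
    rw [leftUnitor_inv_naturality_assoc, whisker_exchange_assoc,
      associator_naturality_left_assoc]
    simp
  have h2 : R ◁ mb b ≫ MonObj.mul = MonObj.mul ≫ mb b := by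
    rw [← IsCommMonObj.mul_comm R, BraidedCategory.braiding_naturality_right_assoc, h1,
      IsCommMonObj.mul_comm, IsCommMonObj.mul_comm_assoc]
  rw [tensorHom_def, Category.assoc, h2, reassoc_of% h1]

end mb

section ext

variable {T₀ T : TTC} [StableCat T₀.C] (V : T.C ⥤ T₀.C) [V.CommShift ℤ] [V.IsTriangulated]
  [∀ I : Type, PreservesColimitsOfShape (Discrete I) V] (K : T₀.C) (K' : T.C)

/-- the underlying functor detects isomorphisms and `K`-equivalences -/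
structure Det : Prop where
  iso : ∀ {X Y : T.C} (f : X ⟶ Y), IsIso (V.map f) → IsIso f
  keq : ∀ {X Y : T.C} (f : X ⟶ Y), IsIso (K ◁ V.map f) → IsIso (K' ◁ f)

variable {V K K'} (d : Det V K K')
include d

theorem exists_ext {P Q Z : T.C} {b : ℕ → (P ⟶ P)} {q : ℕ → (P ⟶ Q)}
    (hw : ∀ n, b n ≫ q (n + 1) = q n)
    (h : KCol K (fun n => V.map (b n)) (fun n => V.map (q n))) (hZ : IsLocal K' Z)
    (z : ℕ → (P ⟶ Z)) (hz : ∀ n, b n ≫ z (n + 1) = z n) : ∃ l : Q ⟶ Z, ∀ n, q n ≫ l = z n := by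
  let U := tel (X := fun _ => P) b
  obtain ⟨c, hc⟩ := U.exists_desc q hw
  obtain ⟨g, hg⟩ := U.exists_desc z hz
  have h1 : IsIso (K ◁ V.map c) :=
    isIso_tel h.sec (h.inj _ (KM.self K)) (U.map V) (V.map c) fun n => by
      rw [← hc]; exact (V.map_comp _ _).symm
  obtain ⟨l, hl⟩ := (hZ.precomp_bijective c (d.keq c h1)).2 g
  replace hl : c ≫ l = g := hl
  exact ⟨l, fun n => by rw [← hc, Category.assoc, hl, hg]⟩

theorem exists_ext' {P Q Z : T.C} {b : ℕ → (P ⟶ P)} {q : ℕ → (P ⟶ Q)}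
    (hw : ∀ n, b n ≫ q (n + 1) = q n)
    (h : KCol K (fun n => V.map (b n)) (fun n => V.map (q n))) (hZ : IsLocal K' Z)
    (g : P ⟶ Z) (hg : ∀ n, ∃ M : Z ⟶ Z, IsIso M ∧ b n ≫ g = g ≫ M) :
    ∃ l : Q ⟶ Z, q 0 ≫ l = g := by
  choose M hM hb using hg
  let θ : ℕ → (Z ⟶ Z) := fun n => Nat.rec (𝟙 Z) (fun n t => inv (M n) ≫ t) n
  obtain ⟨l, hl⟩ := exists_ext d hw h hZ (fun n => g ≫ θ n) fun n => by
    change b n ≫ g ≫ inv (M n) ≫ θ n = g ≫ θ n
    rw [reassoc_of% hb n, IsIso.hom_inv_id_assoc]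
  exact ⟨l, (hl 0).trans (Category.comp_id g)⟩

omit d in
variable (V K K') in
/-- `Z` is the localization of the telescope of the multiplications by the `a n` on `R` -/
structure Pres (R Z : T.C) [MonObj R] (a : ℕ → (𝟙_ T.C ⟶ R)) (ι : ℕ → (R ⟶ Z)) : Prop where
  w : ∀ n, mb (a n) ≫ ι (n + 1) = ι n
  col : KCol K (fun n => V.map (mb (a n))) (fun n => V.map (ι n))
  loc : IsLocal K' Z

omit d in
variable (V) in
/-- the endomorphism `t` induces an isomorphism of the underlying object of the target -/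
def Good {R Z : T.C} (ι : R ⟶ Z) (t : R ⟶ R) : Prop :=
  ∃ θ : V.obj Z ⟶ V.obj Z, IsIso θ ∧ V.map t ≫ V.map ι = V.map ι ≫ θ

omit d in
theorem Good.comp {R Z : T.C} {ι : R ⟶ Z} {t t' : R ⟶ R} (h : Good V ι t) (h' : Good V ι t') :
    Good V ι (t ≫ t') := by
  obtain ⟨θ, _, hθ⟩ := h
  obtain ⟨θ', _, hθ'⟩ := h'
  exact ⟨θ ≫ θ', inferInstance, by rw [V.map_comp, Category.assoc, hθ', reassoc_of% hθ]⟩

variable {R Z : T.C} [MonObj R] [IsCommMonObj R] {a : ℕ → (𝟙_ T.C ⟶ R)} {ι : ℕ → (R ⟶ Z)}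
  (P : Pres V K K' R Z a ι)
include P

omit d in
theorem Pres.epi : Epi (V.map (ι 0)) := by
  obtain ⟨s, hs⟩ := P.col.sec
  exact (IsSplitEpi.mk' ⟨s, hs⟩).epi

theorem Pres.exists_mul (c : 𝟙_ T.C ⟶ R) (hc : Good V (ι 0) (mb c)) :
    ∃ M : Z ⟶ Z, IsIso M ∧ mb c ≫ ι 0 = ι 0 ≫ M := by
  obtain ⟨M, hM⟩ := exists_ext d P.w P.col P.loc (fun n => mb c ≫ ι n) fun n => by
    rw [← Category.assoc, ModStr.smul_comm, Category.assoc, P.w]
  obtain ⟨θ, _, hθ⟩ := hc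
  have := P.epi
  have h1 : V.map M = θ := by rw [← cancel_epi (V.map (ι 0)), ← hθ, ← V.map_comp, hM, V.map_comp]
  exact ⟨M, d.iso M (by rw [h1]; infer_instance), (hM 0).symm⟩

theorem Pres.exists_desc {A B : T.C} {b : ℕ → (A ⟶ A)} {q : ℕ → (A ⟶ B)}
    (hw : ∀ n, b n ≫ q (n + 1) = q n)
    (h : KCol K (fun n => V.map (b n)) (fun n => V.map (q n))) (g : A ⟶ R)
    (hg : ∀ n, ∃ c : 𝟙_ T.C ⟶ R, Good V (ι 0) (mb c) ∧ b n ≫ g = g ≫ mb c) :
    ∃ l : B ⟶ Z, q 0 ≫ l = g ≫ ι 0 := by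
  refine exists_ext' d hw h P.loc _ fun n => ?_
  obtain ⟨c, hc, hb⟩ := hg n
  obtain ⟨M, hM, h1⟩ := P.exists_mul d c hc
  exact ⟨M, hM, by rw [reassoc_of% hb, h1, Category.assoc]⟩

end ext

end Vale.Agent.P236Z.Mod
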