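import Vale.Agent.P236Z.Mod.Tel

/-!
# P236, block MOD: the pairing and the norm maps
-/

open CategoryTheory MonoidalCategory Limits Pretriangulated
open Functor.LaxMonoidal Functor.OplaxMonoidal
open Vale.Agent.P251 Vale.Agent.P251.T Vale.Agent.P251.S Vale.Agent.P236Z.Cat
open scoped CategoryTheory.Obj

set_option linter.unusedSectionVars false

noncomputable section
namespace Vale.Agent.P236Z.Mod

/-- a pairing which extends the multiplication can be made commutative and unital -/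
theorem exists_pairing {T₀ T : TTC} (V : T.C ⥤ T₀.C)
    (hV : ∀ {X Y : T.C} (f : X ⟶ Y), IsIso (V.map f) → IsIso f) {Y X : T.C} [MonObj Y]
    [IsCommMonObj Y] (ι : Y ⟶ X) [Epi (V.map ι)] (h2 : IsIso ((2 : ℤ) • 𝟙 X)) (μ₀ : X ⊗ X ⟶ X)
    (h : (ι ⊗ₘ ι) ≫ μ₀ = MonObj.mul ≫ ι) :
    ∃ μ₁ : X ⊗ X ⟶ X, (ι ⊗ₘ ι) ≫ μ₁ = MonObj.mul ≫ ι ∧ (β_ X X).hom ≫ μ₁ = μ₁ ∧
      (MonObj.one ≫ ι) ▷ X ≫ μ₁ = (λ_ X).hom := by
  let μ₁ := (μ₀ + (β_ X X).hom ≫ μ₀) ≫ inv ((2 : ℤ) • 𝟙 X)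
  have h1 : (ι ⊗ₘ ι) ≫ μ₁ = MonObj.mul ≫ ι := by
    rw [← Category.assoc, Preadditive.comp_add, BraidedCategory.braiding_naturality_assoc, h,
      IsCommMonObj.mul_comm_assoc, IsIso.comp_inv_eq, Preadditive.comp_zsmul, Category.comp_id,
      two_zsmul]
  have hc : (β_ X X).hom ≫ μ₁ = μ₁ := by
    rw [← Category.assoc, Preadditive.comp_add, SymmetricCategory.symmetry_assoc, add_comm]
  let t := (λ_ X).inv ≫ (MonObj.one ≫ ι) ▷ X ≫ μ₁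
  have ht : ι ≫ t = ι := by
    rw [leftUnitor_inv_naturality_assoc, whisker_exchange_assoc, comp_whiskerRight, Category.assoc,
      ← tensorHom_def_assoc, h1, MonObj.one_mul_assoc, Iso.inv_hom_id_assoc]
  have : IsIso t := hV t (by
    have h3 : V.map t = 𝟙 _ := by
      rw [← cancel_epi (V.map ι), ← V.map_comp, ht, Category.comp_id]
    rw [h3]; infer_instance)
  refine ⟨μ₁ ≫ inv t, ?_, by rw [reassoc_of% hc], ?_⟩
  · rw [reassoc_of% h1, ← cancel_mono t, Category.assoc, Category.assoc, IsIso.inv_hom_id,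
      Category.comp_id, Category.assoc, ht]
  · rw [← Category.assoc, IsIso.comp_inv_eq, Iso.hom_inv_id_assoc]

theorem map_mul3' {C C' : Type 1} [Category.{0} C] [MonoidalCategory C] [Category.{0} C']
    [MonoidalCategory C'] [SymmetricCategory C] [SymmetricCategory C'] (F : C ⥤ C') [F.Monoidal]
    {A P : C} [MonObj A] [MonObj P] (f₀ f₁ f₂ : A ⟶ P) :
    F.map ((f₀ ⊗ₘ f₁ ⊗ₘ f₂) ≫ Step.mul3 P) = δ F _ _ ≫ _ ◁ δ F _ _ ≫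
      (F.map f₀ ⊗ₘ F.map f₁ ⊗ₘ F.map f₂) ≫ Step.mul3 (F.obj P) := by
  rw [map_mul3, ← whiskerLeft_comp_assoc, Functor.Monoidal.δ_μ, whiskerLeft_id, Category.id_comp,
    Functor.Monoidal.δ_μ_assoc]

variable (W : Tower) {K E : W.T₀.C} [MonObj E] [IsCommMonObj E] (ρ : E ⟶ E) [IsMonHom ρ]

/-- the first vertex -/
def j0 (E : W.T₀.C) [MonObj E] :
    E ⟶ W.s₁.U.F.obj (W.s₂.U.F.obj (W.s₂.N.obj (W.s₁.N.obj E))) :=
  in0 W.s₁ E ≫ W.s₁.U.F.map (in0 W.s₂ (W.s₁.N.obj E))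

theorem cop3_two (E : W.T₀.C) [MonObj E] [IsCommMonObj E] :
    IsCop3 (W.s₁.U.F.map (in0 W.s₂ (W.s₁.N.obj E)))
      (W.s₁.U.F.map (in0 W.s₂ (W.s₁.N.obj E)) ≫ W.s₁.U.F.map (W.s₂.γ _))
      (W.s₁.U.F.map (in0 W.s₂ (W.s₁.N.obj E)) ≫ W.s₁.U.F.map (W.s₂.γ _) ≫
        W.s₁.U.F.map (W.s₂.γ _)) := by
  have h := (cop3_in0 W.s₂ (W.s₁.N.obj E)).map W.s₁.U.F
  simp only [Functor.map_comp] at h
  exact h

theorem in0_cube (E : W.T₀.C) [MonObj E] :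
    W.s₁.U.F.map (in0 W.s₂ (W.s₁.N.obj E)) ≫ W.s₁.U.F.map (W.s₂.γ _) ≫ W.s₁.U.F.map (W.s₂.γ _) ≫
      W.s₁.U.F.map (W.s₂.γ _) = W.s₁.γ _ ≫ W.s₁.U.F.map (in0 W.s₂ (W.s₁.N.obj E)) := by
  rw [← Functor.map_comp, ← Functor.map_comp, γ_cube, γ_nat]

theorem xdat_of (hρ : (ρ ≫ ρ ≫ ρ) ≫ (ρ ≫ ρ ≫ ρ) ≫ (ρ ≫ ρ ≫ ρ) = 𝟙 E) (hE : IsLocal K E)
    (h2 : IsIso ((2 : ℤ) • 𝟙 E)) (hN₁ : W.s₁.IsNm (W.s₁.N.obj E) (W.s₁.nmN E))
    (hN₂ : W.s₂.IsNm (W.s₂.N.obj (W.s₁.N.obj E)) (W.s₂.nmN (W.s₁.N.obj E)))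
    (hnat : W.s₁.N.map (W.s₁.U.F.map (W.s₁.N.map ρ)) ≫ W.s₁.nmN E = W.s₁.nmN E ≫ W.s₁.N.map ρ)
    (hL : ∀ (m : W.s₁.U.F.obj (W.s₂.U.F.obj (W.s₂.N.obj (W.s₁.N.obj E))) ⟶ E) [IsMonHom m],
      j0 W E ≫ m = 𝟙 E → W.s₁.U.F.map (W.s₂.γ _) ≫ m = m ≫ ρ → Loc K m) :
    Nonempty (XDat W E ρ) := by
  obtain ⟨n, hn, hn0, hnγ⟩ := (cop3_in0 W.s₁ E).fold (𝟙 E)
    (by rw [γ_cube]; exact (Category.comp_id _).trans (Category.id_comp _).symm) (𝟙 E) (ρ ≫ ρ ≫ ρ)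
    (by rw [hρ])
  obtain ⟨m, hm, hm0, hmγ⟩ := (cop3_two W E).fold (W.s₁.γ _) (in0_cube W E) n ρ hnγ
  have hj : j0 W E ≫ m = 𝟙 E := by rw [j0, Category.assoc, hm0, hn0]
  obtain ⟨nm₁, hnm, hres, hi0, hi1⟩ := exists_nm W.s₁ (cop3_in0 W.s₂ (W.s₁.N.obj E)) hN₁
  obtain ⟨X, a, ι, e, P, he, hG⟩ := exists_pres hE m ⟨_, hj⟩ (hL m hj hmγ) ρ hmγ _ hN₂.res nm₁ hres
  have hepi := P.epi
  have hcol : KCol K (fun n => W.s₁.U.F.map (W.s₂.U.F.map (mb (a n))))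
    (fun n => W.s₁.U.F.map (W.s₂.U.F.map (ι n))) := P.col
  -- the pairing
  obtain ⟨μ₀, hμ₀⟩ := P.exists_desc (det₂ W K) (b := fun n => mb (a n) ⊗ₘ mb (a n))
    (q := fun n => ι n ⊗ₘ ι n) (fun n => by rw [tensorHom_comp_tensorHom, P.w])
    (kcol_tensor W.s₂ W.s₁.U.F hcol) MonObj.mul fun n => ⟨scMul (a n) (a n),
      by rw [mb, ModStr.smul_mul']; exact (hG n).comp (hG n),
      by rw [mb_tensor, mb, mb, ModStr.smul_mul']⟩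
  obtain ⟨μ₁, hμ₁, hc, hu⟩ := exists_pairing (W.s₂.U.F ⋙ W.s₁.U.F) (det₂ W K).iso (ι 0)
    ((det₂ W K).iso _ (by
      have h : (W.s₂.U.F ⋙ W.s₁.U.F).map ((2 : ℤ) • 𝟙 X) = e.hom ≫ ((2 : ℤ) • 𝟙 E) ≫ e.inv := by
        rw [Functor.map_zsmul, Preadditive.zsmul_comp, Preadditive.comp_zsmul, Category.id_comp,
          e.hom_inv_id, CategoryTheory.Functor.map_id]
        rfl
      rw [h]; infer_instance)) μ₀ hμ₀
  -- the norm maps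
  have hG3 : ∀ n, Good (W.s₂.U.F ⋙ W.s₁.U.F) (ι 0) (mb (a n) ≫ mb (a n) ≫ mb (a n)) :=
    fun n => (hG n).comp ((hG n).comp (hG n))
  have := hN₂.mon
  have hc₂ := kcol_N W.s₂ W.s₁.U.F hcol
  obtain ⟨nm₂, hnm₂⟩ := P.exists_desc (det₂ W K)
    (b := fun n => W.s₂.N.map (W.s₂.U.F.map (mb (a n))))
    (q := fun n => W.s₂.N.map (W.s₂.U.F.map (ι n)))
    (fun n => by rw [← Functor.map_comp, ← Functor.map_comp, P.w]) hc₂ (W.s₂.nmN _)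
    fun n => ⟨_, by
      obtain ⟨θ, hθ, h⟩ := hG3 n
      refine ⟨θ, hθ, Eq.trans ?_ h⟩
      exact congrArg (fun t => W.s₁.U.F.map t ≫ _) (map_mb_nm W.s₂ hN₂.res (a n)),
      N_mb_nm W.s₂ _ (a n)⟩
  have hb : (fun n => W.s₁.U.F.map (W.s₂.U.F.map (mb (a n)))) =
      fun n => W.s₁.U.F.map (mb (el W.s₂.U.F (a n))) := funext fun n => by rw [map_mb]
  have P₁ : Pres W.s₁.U.F K (K₁ W K) _ (W.s₂.U.F.obj X) (fun n => el W.s₂.U.F (a n))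
      (fun n => W.s₂.U.F.map (ι n)) :=
    ⟨fun n => by rw [← map_mb, ← Functor.map_comp, P.w], hb ▸ hcol,
      isLocal_U W.s₂ (e₂ W K) P.loc⟩
  obtain ⟨ν₁, hν₁⟩ := P₁.exists_desc (det₁ W K)
    (b := fun n => W.s₁.N.map (W.s₁.U.F.map (mb (el W.s₂.U.F (a n)))))
    (q := fun n => W.s₁.N.map (W.s₁.U.F.map (W.s₂.U.F.map (ι n))))
    (fun n => by rw [← Functor.map_comp, ← Functor.map_comp, P₁.w])
    (kcol_N W.s₁ (𝟭 _) P₁.col) nm₁ fun n => ⟨_, by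
      obtain ⟨θ, hθ, h⟩ := hG3 n
      refine ⟨θ, hθ, Eq.trans ?_ h⟩
      rw [map_mb_nm W.s₁ hres, ← map_mb, ← W.s₂.U.F.map_comp, ← W.s₂.U.F.map_comp]
      rfl, N_mb_nm W.s₁ _ _⟩
  have heγ : W.s₁.U.F.map (W.s₂.γ X) ≫ e.hom = e.hom ≫ ρ := by
    rw [← cancel_epi ((W.s₂.U.F ⋙ W.s₁.U.F).map (ι 0))]
    change W.s₁.U.F.map (W.s₂.U.F.map (ι 0)) ≫ _ = W.s₁.U.F.map (W.s₂.U.F.map (ι 0)) ≫ _
    rw [← Functor.map_comp_assoc, γ_nat, Functor.map_comp_assoc, he, reassoc_of% he, hmγ]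
  refine ⟨⟨X, MonObj.one ≫ ι 0, μ₁, hu, hc, e, ?_, ?_, heγ, ι 0, rfl, hμ₁, ?_, ?_, ?_, nm₂, hnm₂,
    ?_⟩⟩
  · rw [← IsMonHom.one_hom m, ← he]
    simp only [Functor.obj.η_def, Functor.map_comp, Category.assoc]
  · obtain ⟨s, hs⟩ := hcol.sec
    have : Epi (W.s₁.U.F.map (W.s₂.U.F.map (ι 0)) ⊗ₘ W.s₁.U.F.map (W.s₂.U.F.map (ι 0))) :=
      (IsSplitEpi.mk' ⟨s ⊗ₘ s, by rw [tensorHom_comp_tensorHom, hs, id_tensorHom_id]⟩).epi
    rw [← cancel_epi (W.s₁.U.F.map (W.s₂.U.F.map (ι 0)) ⊗ₘ W.s₁.U.F.map (W.s₂.U.F.map (ι 0))),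
      tensorHom_comp_tensorHom_assoc, he, ← IsMonHom.mul_hom m, ← he, μ_natural_assoc,
      ← Functor.map_comp_assoc, μ_natural_assoc, ← Functor.map_comp, hμ₁]
    simp only [Functor.obj.μ_def, Functor.map_comp, Category.assoc]
  · rw [Functor.map_comp, Category.assoc, he, hm0, hn0]
  · let φ := W.s₁.N.map (in0 W.s₁ E) ≫ W.s₁.nmN E
    have hφ : IsIso φ := reflIso W.s₁ _ (by
      have h : W.s₁.U.F.map φ = 𝟙 _ := by
        rw [Functor.map_comp, hN₁.res]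
        erw [nu_nat_assoc W.s₁ (in0 W.s₁ E)]
        rw [tensorHom_comp_tensorHom_assoc, tensorHom_comp_tensorHom, Category.comp_id, in0_mul3,
          Iso.hom_inv_id]
      rw [h]; infer_instance)
    have hφρ : φ ≫ W.s₁.N.map ρ = W.s₁.N.map ρ ≫ φ := by
      rw [Category.assoc, ← hnat, ← Functor.map_comp_assoc, in0_nat, Functor.map_comp_assoc]
    have key : ∀ (i : W.s₁.N.obj E ⟶ _) (r : E ⟶ E),
        W.s₁.N.map (W.s₁.U.F.map i) ≫ nm₁ = W.s₁.nmN E ≫ i →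
        in0 W.s₁ E ≫ W.s₁.U.F.map i ≫ m = r →
        φ ≫ i ≫ W.s₂.U.F.map (ι 0) = W.s₁.N.map (r ≫ e.inv) ≫ ν₁ := fun i r hi hr => by
      rw [Category.assoc, ← reassoc_of% hi, ← hν₁, ← hr, ← he]
      simp only [Functor.map_comp, Category.assoc, Iso.hom_inv_id, Category.comp_id]
    have k0 := key _ (𝟙 E) hi0 (by rw [hm0, hn0])
    have k1 := key _ ρ hi1 (by
      rw [Functor.map_comp, Category.assoc, hmγ, reassoc_of% hm0, reassoc_of% hn0])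
    rw [← cancel_epi φ, reassoc_of% hφρ, γ_nat, ← Category.assoc (in0 W.s₂ _) (W.s₂.γ _), k0, k1,
      ← Functor.map_comp_assoc, Category.id_comp]
  · rw [Functor.map_comp, Category.assoc, he, hm0, ← cancel_epi (nu W.s₁ E).inv]
    erw [Iso.inv_hom_id_assoc]
    rw [← in0_mul3, Category.assoc, tens_mul3_comp, hn0]
    simp only [Category.assoc, hnγ, reassoc_of% hnγ, reassoc_of% hn0]
  · obtain ⟨s, hs⟩ := hc₂.sec
    have := (IsSplitEpi.mk' ⟨s, hs⟩).epi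
    rw [← cancel_epi (W.s₁.U.F.map (W.s₂.U.F.map (W.s₂.N.map (W.s₂.U.F.map (ι 0))))),
      ← Functor.map_comp_assoc, ← Functor.map_comp, hnm₂, Functor.map_comp, Functor.map_comp_assoc,
      he, hN₂.res, ← Functor.map_comp_assoc]
    erw [nu_nat W.s₂ (W.s₂.U.F.map (ι 0))]
    rw [Functor.map_comp, map_mul3', Category.assoc, Category.assoc, Category.assoc, Category.assoc,
      tens_mul3_comp]
    simp only [Category.assoc, ← δ_natural_assoc, ← id_tensorHom,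
      tensorHom_comp_tensorHom_assoc, Category.id_comp,
      Functor.map_comp, CategoryTheory.Functor.map_id, tensorHom_comp_tensorHom, he,
      reassoc_of% he, hmγ, reassoc_of% hmγ]
    rfl

end Vale.Agent.P236Z.Mod
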