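import Vale.Agent.P236Z.Mod.Loc
import Vale.Agent.P236Z.Mod.Main
import Vale.Agent.P236Z.Cat.Nm

/-!
# P236, block MOD: the equivariant model exists
-/

open CategoryTheory MonoidalCategory Limits Pretriangulated
open Vale.Agent.P251 Vale.Agent.P251.T Vale.Agent.P251.M Vale.Agent.P251.S Vale.Agent.P251.F
  Vale.Agent.P251.I Vale.Agent.P251.X Vale.Agent.P236Z.Cat
open scoped CategoryTheory.Obj

noncomputable section
namespace Vale.Agent.P236Z.Mod

instance isMonHom_itr {C : Type*} [Category C] [MonoidalCategory C] {R : C} [MonObj R] (g : R ⟶ R)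
    [IsMonHom g] (n : ℕ) : IsMonHom (itr g n) := by
  induction n with
  | zero => exact inferInstanceAs (IsMonHom (𝟙 R))
  | succ n ih => exact inferInstanceAs (IsMonHom (itr g n ≫ g))

theorem isIso_two {W : Tower} {D : MUData W.T₀.C} (P : EDat D) : IsIso ((2 : ℤ) • 𝟙 P.E) := by
  have h4 : IsUnit (4 : Sc P.E) := isUnit_of_s0 (E := stdEven W.T₀.C) (P.unit _ (by
    change s0 _ P.E 4 - 1 ∈ _
    rw [map_ofNat, show (4 - 1 : HRing (stdEven W.T₀.C) P.E) = 3 by norm_num]
    exact three_mem P))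
  have h2 : IsUnit (2 : Sc P.E) :=
    isUnit_of_mul_isUnit_left (y := 2) (by rw [show (2 * 2 : Sc P.E) = 4 by norm_num]; exact h4)
  have h : mb (2 : Sc P.E).hom = (2 : ℤ) • 𝟙 P.E := by
    rw [two_zsmul, ← one_add_one_eq_two]
    exact (ModStr.smul_add _ _ _).trans (congrArg₂ (· + ·) mb_one mb_one)
  rw [← h]
  exact isIso_mb h2

/-- **MODX** -/
theorem modx : MODX := fun W D P => by
  refine xdat_of W P.ρ P.ρ9 P.loc (isIso_two P) (W.s₁.isNm_nmN _) (W.s₂.isNm_nmN _)
    (W.s₁.nmN_natural _) fun m _ h0 hγ => ?_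
  have : IsMonHom (j0 W P.E) := by unfold j0; infer_instance
  let g := W.s₁.U.F.map (W.s₂.γ (W.s₂.N.obj (W.s₁.N.obj P.E)))
  have hρ : ∀ i, (j0 W P.E ≫ itr g i) ≫ m = itr P.ρ i := fun i => by
    have h : itr g i ≫ m = m ≫ itr P.ρ i := by
      induction i with
      | zero => exact (Category.id_comp _).trans (Category.comp_id _).symm
      | succ i ih => rw [itr_succ, itr_succ, Category.assoc, hγ, reassoc_of% ih]
    rw [Category.assoc, h, reassoc_of% h0]
  refine loc P (fun i => j0 W P.E ≫ itr g i) m (hρ 0) (fun i => ?_) ?_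
  · rw [HRing_map_congr (hρ i)]
    induction i with
    | zero => rw [HRing_map_congr (itr_zero _), HRing.map_id, RingHom.id_apply, sub_self]; simp
    | succ i ih =>
      have h := Ideal.add_mem _ (map_mem P P.ρ ih) P.ρU
      rwa [map_sub, sub_add_sub_cancel, ← RingHom.comp_apply, ← HRing.map_comp] at h
  · have h1 := Gen.cop3 (cop3_in0 W.s₁ P.E) P.gen (fun l : ℕ => in0 W.s₁ P.E ≫ itr (W.s₁.γ _) l)
      (fun _ => ⟨0, by simp⟩) (fun _ => ⟨1, by simp [itr_succ]⟩) (fun _ => ⟨2, by simp [itr_succ]⟩)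
    have h2 : ∀ l, (in0 W.s₁ P.E ≫ itr (W.s₁.γ _) l) ≫ W.s₁.U.F.map (in0 W.s₂ (W.s₁.N.obj P.E)) =
        j0 W P.E ≫ itr g (3 * l) := fun l => by
      induction l with
      | zero => simp [j0]
      | succ l ih =>
        rw [itr_succ, Category.assoc, Category.assoc, ← in0_cube, Nat.mul_succ, itr_succ, itr_succ,
          itr_succ]
        simp only [← Category.assoc] at ih ⊢
        rw [ih]
    refine Gen.cop3 (cop3_two W P.E) h1 _ (fun l => ⟨3 * l, (h2 l).symm⟩)
      (fun l => ⟨3 * l + 1, ?_⟩) fun l => ⟨3 * l + 2, ?_⟩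
    · rw [← Category.assoc, h2, itr_succ, Category.assoc]
    · rw [← Category.assoc, h2, itr_succ, itr_succ, Category.assoc, Category.assoc]

end Vale.Agent.P236Z.Mod
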