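import Vale.Agent.P236Z.Mod.Ext
import Vale.Agent.P251.M.EvenRing

/-!
# P236, block MOD: homogeneous elements of homotopy rings
-/

open CategoryTheory MonoidalCategory Limits
open Vale.Agent.P251 Vale.Agent.P251.M Vale.Agent.P251.S Vale.Agent.P251.M.EvenSpheres

set_option linter.unusedSectionVars false

universe v u

noncomputable section
namespace Vale.Agent.P236Z.Mod

variable {T : Type u} [Category.{v} T] [MonoidalCategory T] [SymmetricCategory T]
  [Preadditive T] [MonoidalPreadditive T] {E : EvenSpheres T} {R R' : T} [MonObj R]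
  [IsCommMonObj R] [MonObj R'] [IsCommMonObj R']

theorem of_zero (n : ℤ) : HRing.of E R n 0 = 0 := (DirectSum.of (E.Gr R) n).map_zero

theorem of_add (n : ℤ) (a b : E.S n ⟶ R) :
    HRing.of E R n (a + b) = HRing.of E R n a + HRing.of E R n b :=
  (DirectSum.of (E.Gr R) n).map_add a b

/-- homogeneous of degree `n` -/
def Hm (n : ℤ) (y : HRing E R) : Prop := ∃ a : E.S n ⟶ R, y = HRing.of E R n a

theorem Hm.mul {m n p : ℤ} {x y : HRing E R} (hx : Hm m x) (hy : Hm n y) (h : m + n = p) :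
    Hm p (x * y) := by
  obtain ⟨a, rfl⟩ := hx
  obtain ⟨b, rfl⟩ := hy
  exact ⟨_, of_mul_of h a b⟩

theorem Hm.one : Hm 0 (1 : HRing E R) := ⟨_, of_one.symm⟩

theorem Hm.pow {m p : ℤ} {x : HRing E R} (hx : Hm m x) (k : ℕ) (h : k * m = p) : Hm p (x ^ k) := by
  induction k generalizing p with
  | zero =>
    obtain rfl : p = 0 := by simpa using h.symm
    rw [pow_zero]; exact Hm.one
  | succ k ih => rw [pow_succ]; exact (ih rfl).mul hx (by rw [← h]; push_cast; ring)

theorem Hm.zero (n : ℤ) : Hm n (0 : HRing E R) := ⟨0, (map_zero _).symm⟩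

theorem Hm.add {n : ℤ} {x y : HRing E R} (hx : Hm n x) (hy : Hm n y) : Hm n (x + y) := by
  obtain ⟨a, rfl⟩ := hx
  obtain ⟨b, rfl⟩ := hy
  exact ⟨a + b, (map_add _ _ _).symm⟩

theorem Hm.sub {n : ℤ} {x y : HRing E R} (hx : Hm n x) (hy : Hm n y) : Hm n (x - y) := by
  obtain ⟨a, rfl⟩ := hx
  obtain ⟨b, rfl⟩ := hy
  exact ⟨a - b, (map_sub _ _ _).symm⟩

theorem Hm.sum {n : ℤ} {ι : Type*} (s : Finset ι) {x : ι → HRing E R} (hx : ∀ i, Hm n (x i)) :
    Hm n (∑ i ∈ s, x i) :=
  Finset.sum_induction _ _ (fun _ _ => Hm.add) (Hm.zero n) fun i _ => hx i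

theorem Hm.nat (k : ℕ) : Hm 0 (k : HRing E R) := by
  induction k with
  | zero => rw [Nat.cast_zero]; exact Hm.zero 0
  | succ k ih => rw [Nat.cast_succ]; exact ih.add Hm.one

theorem Hm.map {n : ℤ} {x : HRing E R} (hx : Hm n x) (f : R ⟶ R') [IsMonHom f] :
    Hm n (HRing.map f x) := by
  obtain ⟨a, rfl⟩ := hx
  exact ⟨_, HRing.map_of f n a⟩

theorem Hm.inv {n n' : ℤ} {x y : HRing E R} (hx : Hm n x) (h : x * y = 1) (hn : n + n' = 0) :
    Hm n' y := by
  obtain ⟨a, rfl⟩ := hx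
  have key : ∀ w : HRing E R, HRing.of E R 0 ((HRing.of E R n a * w) 0) =
      HRing.of E R n a * HRing.of E R n' (w n') := fun w => by
    induction w using DirectSum.induction_on with
    | zero => simp
    | of l b =>
      by_cases hl : l = n'
      · subst hl
        rw [DirectSum.of_eq_same, of_mul_of hn, DirectSum.of_eq_same]
      · rw [DirectSum.of_eq_of_ne _ _ _ (Ne.symm hl), of_mul_of (p := n + l) rfl,
          DirectSum.of_eq_of_ne _ _ _ (by omega), of_zero, of_zero, mul_zero]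
    | add x y hx hy =>
      rw [mul_add, DirectSum.add_apply, DirectSum.add_apply, of_add, of_add, hx, hy, mul_add]
  have h1 := key y
  rw [h, ← of_one, DirectSum.of_eq_same, of_one] at h1
  refine ⟨y n', ?_⟩
  calc y = y * (HRing.of E R n a * HRing.of E R n' (y n')) := by rw [← h1, mul_one]
    _ = _ := by rw [← mul_assoc, mul_comm y, h, one_mul]

theorem of_mul_mb (a : 𝟙_ T ⟶ R) (n : ℤ) (x : E.S n ⟶ R) :
    HRing.of E R 0 (E.zero.inv ≫ a) * HRing.of E R n x = HRing.of E R n (x ≫ mb a) := by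
  rw [of_mul_of (zero_add n), gmul, one_ext, Category.assoc, Category.assoc]
  rfl

variable (E R) in
/-- scalars as elements of degree zero -/
def s0 : Sc R →+* HRing E R where
  toFun a := HRing.of E R 0 (E.zero.inv ≫ a.hom)
  map_one' := of_one
  map_mul' a b := by
    rw [of_mul_mb, Category.assoc, ← scMul_eq_smul]
    rfl
  map_zero' := by
    change HRing.of E R 0 (E.zero.inv ≫ 0) = 0
    rw [comp_zero, of_zero]
  map_add' a b := by
    change HRing.of E R 0 (E.zero.inv ≫ (a.hom + b.hom)) = _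
    rw [Preadditive.comp_add, of_add]

theorem s0_injective : Function.Injective (s0 E R) := fun _ _ h =>
  (cancel_epi E.zero.inv).1 (DirectSum.of_injective (β := E.Gr R) 0 h)

theorem Hm.exists_s0 {y : HRing E R} (h : Hm 0 y) : ∃ a, s0 E R a = y := by
  obtain ⟨a, rfl⟩ := h
  refine ⟨Sc.of (E.zero.hom ≫ a), ?_⟩
  change HRing.of E R 0 (E.zero.inv ≫ E.zero.hom ≫ a) = _
  rw [Iso.inv_hom_id_assoc]

theorem map_s0 (f : R ⟶ R') [IsMonHom f] (a : Sc R) :
    HRing.map f (s0 E R a) = s0 E R' (Sc.map f a) := by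
  change HRing.map f (HRing.of E R 0 _) = HRing.of E R' 0 (E.zero.inv ≫ a.hom ≫ f)
  rw [HRing.map_of, Category.assoc]

theorem isUnit_of_s0 {a : Sc R} (h : IsUnit (s0 E R a)) : IsUnit a := by
  obtain ⟨y, hy⟩ := h.exists_right_inv
  obtain ⟨b, rfl⟩ := (Hm.inv (n := 0) ⟨_, rfl⟩ hy (add_zero 0)).exists_s0
  exact IsUnit.of_mul_eq_one b (s0_injective (E := E) (by rw [map_mul, hy, map_one]))

end Vale.Agent.P236Z.Mod
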