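import Vale.Agent.P251.S.TelTens
import Vale.Agent.P251.S.Loc
import Vale.Agent.P251.M.TelPi

/-!
# P236, block MOD: sequences whose telescope is `K`-equivalent to a given object
-/

open CategoryTheory MonoidalCategory Limits Pretriangulated
open Vale.Agent.P251 Vale.Agent.P251.T Vale.Agent.P251.S

set_option linter.unusedSectionVars false

universe v u

namespace Vale.Agent.P236Z.Mod

section tr

variable {T : Type u} [Category.{v} T] {A : T}

/-- the product `b n ≫ … ≫ b (n + r - 1)` -/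
def pr (b : ℕ → (A ⟶ A)) (n : ℕ) : ℕ → (A ⟶ A)
  | 0 => 𝟙 A
  | r + 1 => pr b n r ≫ b (n + r)

theorem pr_add (b : ℕ → (A ⟶ A)) (n r s : ℕ) : pr b n (r + s) = pr b n r ≫ pr b (n + r) s := by
  induction s with
  | zero => exact (Category.comp_id _).symm
  | succ s ih =>
    change pr b n (r + s) ≫ b (n + (r + s)) = pr b n r ≫ pr b (n + r) s ≫ b (n + r + s)
    rw [ih, Category.assoc, Nat.add_assoc]

theorem trT_eq [Preadditive T] (b : ℕ → (A ⟶ A)) (n r : ℕ) :
    trT (X := fun _ => A) b n r = pr b n r := by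
  induction r with
  | zero => rfl
  | succ r ih => exact congrArg (· ≫ b (n + r)) ih

theorem map_pr {T' : Type*} [Category T'] (F : T ⥤ T') (b : ℕ → (A ⟶ A)) (n r : ℕ) :
    pr (fun n => F.map (b n)) n r = F.map (pr b n r) := by
  induction r with
  | zero => exact (F.map_id _).symm
  | succ r ih =>
    change pr _ n r ≫ F.map _ = F.map (pr b n r ≫ _)
    rw [ih, F.map_comp]

theorem pr_comm {A' : T} {b : ℕ → (A ⟶ A)} {b' : ℕ → (A' ⟶ A')} (e : A ⟶ A')
    (h : ∀ n, b n ≫ e = e ≫ b' n) (n r : ℕ) : pr b n r ≫ e = e ≫ pr b' n r := by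
  induction r with
  | zero => exact (Category.id_comp _).trans (Category.comp_id _).symm
  | succ r ih =>
    change (pr b n r ≫ _) ≫ e = e ≫ pr b' n r ≫ _
    rw [Category.assoc, h, reassoc_of% ih]

theorem pr_tensor [MonoidalCategory T] {A' : T} (b : ℕ → (A ⟶ A)) (b' : ℕ → (A' ⟶ A'))
    (n r : ℕ) : pr (fun n => b n ⊗ₘ b' n) n r = pr b n r ⊗ₘ pr b' n r := by
  induction r with
  | zero => exact (id_tensorHom_id _ _).symm
  | succ r ih =>
    change pr _ n r ≫ (_ ⊗ₘ _) = (pr b n r ≫ _) ⊗ₘ (pr b' n r ≫ _)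
    rw [ih, tensorHom_comp_tensorHom]

end tr

variable {T : Type u} [Category.{v} T] [Preadditive T] [HasZeroObject T]
    [HasShift T ℤ] [∀ n : ℤ, (shiftFunctor T n).Additive] [Pretriangulated T] [IsTriangulated T]
    [MonoidalCategory T] [SymmetricCategory T] [TensorTriangulated T] [MonoidalClosed T]
    [HasCoproducts.{0} T] [HasProducts.{0} T] [StableCat T]

theorem cpt_sph (k : ℤ) : S.IsCpt (Sph T k) := fun _ X f => by
  obtain ⟨s, g, hg⟩ := StableCat.compact k X f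
  obtain ⟨g', hg'⟩ := exists_sum_of_factor s g
  exact ⟨s, g', hg.symm.trans hg'⟩

/-- `K`-acyclic objects are `M`-acyclic -/
def KM (K M : T) : Prop := ∀ Z, Acyclic K Z → Acyclic M Z

theorem KM.self (K : T) : KM K K := fun _ h => h

theorem KM.tensor {K M : T} (h : KM K M) (Y : T) : KM K (M ⊗ Y) := fun Z hZ =>
  IsZero.of_iso (h _ (hZ.tensor_left Y)) (α_ M Y Z)

theorem KM.isIso {K M : T} (h : KM K M) {X Y : T} (f : X ⟶ Y) (hf : IsIso (K ◁ f)) :
    IsIso (M ◁ f) := by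
  obtain ⟨Z, g, d, hΔ⟩ := distinguished_cocone_triangle f
  exact (acyclic₃_iff_isIso₁ hΔ).1 (h _ ((acyclic₃_iff_isIso₁ hΔ).2 hf))

/-- the kernel of `p n` in `M`-homology is killed by the transition maps -/
def Inj (M : T) {A B : T} (b : ℕ → (A ⟶ A)) (p : ℕ → (A ⟶ B)) : Prop :=
  ∀ (k : ℤ) (n : ℕ) (x : Sph T k ⟶ M ⊗ A), x ≫ M ◁ p n = 0 → ∃ r, x ≫ M ◁ pr b n r = 0

/-- `B` is the colimit of the sequence `b` in `K`-homology -/
structure KCol (K : T) {A B : T} (b : ℕ → (A ⟶ A)) (p : ℕ → (A ⟶ B)) : Prop where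
  w : ∀ n, b n ≫ p (n + 1) = p n
  sec : ∃ s : B ⟶ A, s ≫ p 0 = 𝟙 B
  inj : ∀ M, KM K M → Inj M b p

variable {K A B A' B' : T} {b : ℕ → (A ⟶ A)} {p : ℕ → (A ⟶ B)} {b' : ℕ → (A' ⟶ A')}
  {p' : ℕ → (A' ⟶ B')}

theorem isIso_tel (hs : ∃ s : B ⟶ A, s ≫ p 0 = 𝟙 B) (hi : Inj K b p)
    (U : Tel (X := fun _ => A) b) (l : U.obj ⟶ B) (hl : ∀ n, U.ι n ≫ l = p n) :
    IsIso (K ◁ l) := by
  refine M.isIso_of_pi _ (fun k w hw => ?_) (fun k w => ?_)
  · obtain ⟨n, x, hx⟩ := (U.tensL K).exists_factor (cpt_sph k) w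
    replace hx : x ≫ K ◁ U.ι n = w := hx
    obtain ⟨r, hr⟩ := hi k n x (by rw [← hl, whiskerLeft_comp, ← Category.assoc, hx, hw])
    rw [← hx, ← U.trT_ι n r, trT_eq, whiskerLeft_comp, ← Category.assoc, hr, zero_comp]
  · obtain ⟨s, hs⟩ := hs
    refine ⟨w ≫ K ◁ (s ≫ U.ι 0), ?_⟩
    rw [Category.assoc, ← whiskerLeft_comp, Category.assoc, hl, hs, whiskerLeft_id,
      Category.comp_id]

theorem KCol.mk' (hw : ∀ n, b n ≫ p (n + 1) = p n) (hs : ∃ s : B ⟶ A, s ≫ p 0 = 𝟙 B)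
    (hi : Inj K b p) : KCol K b p := by
  refine ⟨hw, hs, fun M hM k n x hx => ?_⟩
  let U := tel (X := fun _ => A) b
  obtain ⟨l, hl⟩ := U.exists_desc p hw
  have h1 := hM.isIso l (isIso_tel hs hi U l hl)
  obtain ⟨r, hr⟩ := (U.tensL M).exists_eq_zero (cpt_sph k) (n := n) x (by
    change x ≫ M ◁ U.ι n = 0
    rw [← cancel_mono (M ◁ l), Category.assoc, ← whiskerLeft_comp, hl, hx, zero_comp])
  refine ⟨r, ?_⟩
  rw [trT_eq] at hr
  exact (congrArg (x ≫ ·) (map_pr (tensorLeft M) b n r)).symm.trans hr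

theorem KCol.of_iso (h : KCol K b p) (a : A ≅ A') (e : B ≅ B')
    (hb : ∀ n, b n ≫ a.hom = a.hom ≫ b' n) (hp : ∀ n, p n ≫ e.hom = a.hom ≫ p' n) :
    KCol K b' p' := by
  refine ⟨fun n => ?_, ?_, fun M hM k n x hx => ?_⟩
  · rw [← cancel_epi a.hom, ← reassoc_of% hb, ← hp, ← hp, reassoc_of% h.w]
  · obtain ⟨s, hs⟩ := h.sec
    exact ⟨e.inv ≫ s ≫ a.hom, by
      rw [Category.assoc, Category.assoc, ← hp, reassoc_of% hs, e.inv_hom_id]⟩
  · obtain ⟨r, hr⟩ := h.inj M hM k n (x ≫ M ◁ a.inv) (by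
      rw [← cancel_mono (M ◁ e.hom), Category.assoc, Category.assoc, ← whiskerLeft_comp, hp,
        ← whiskerLeft_comp, a.inv_hom_id_assoc, hx, zero_comp])
    refine ⟨r, ?_⟩
    have h2 : pr b' n r = a.inv ≫ pr b n r ≫ a.hom := by
      rw [pr_comm a.hom hb, a.inv_hom_id_assoc]
    rw [h2, whiskerLeft_comp, whiskerLeft_comp, ← Category.assoc, ← Category.assoc, hr, zero_comp]

theorem KCol.tensor (h : KCol K b p) (h' : KCol K b' p') :
    KCol K (fun n => b n ⊗ₘ b' n) (fun n => p n ⊗ₘ p' n) := by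
  refine ⟨fun n => ?_, ?_, fun M hM k n x hx => ?_⟩
  · rw [tensorHom_comp_tensorHom, h.w, h'.w]
  · obtain ⟨s, hs⟩ := h.sec
    obtain ⟨s', hs'⟩ := h'.sec
    exact ⟨s ⊗ₘ s', by rw [tensorHom_comp_tensorHom, hs, hs', id_tensorHom_id]⟩
  · obtain ⟨r', hr'⟩ := h'.inj _ (hM.tensor B) k n (x ≫ M ◁ (p n ▷ A') ≫ (α_ M B A').inv) (by
      rw [Category.assoc, Category.assoc, ← associator_inv_naturality_right,
        ← whiskerLeft_comp_assoc, ← tensorHom_def, ← Category.assoc, hx, zero_comp])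
    rw [Category.assoc, Category.assoc, ← associator_inv_naturality_right,
      ← whiskerLeft_comp_assoc, ← whisker_exchange, ← Category.assoc,
      Preadditive.IsIso.comp_right_eq_zero] at hr'
    obtain ⟨r, hr⟩ := h.inj _ (hM.tensor A') k n
      (x ≫ M ◁ (A ◁ pr b' n r' ≫ (β_ A A').hom) ≫ (α_ M A' A).inv) (by
      rw [Category.assoc, Category.assoc, ← associator_inv_naturality_right,
        ← whiskerLeft_comp_assoc, Category.assoc, ← BraidedCategory.braiding_naturality_left,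
        ← Category.assoc (A ◁ _), whiskerLeft_comp, Category.assoc, ← Category.assoc, hr',
        zero_comp])
    rw [Category.assoc, Category.assoc, ← associator_inv_naturality_right,
      ← whiskerLeft_comp_assoc, Category.assoc, ← BraidedCategory.braiding_naturality_left,
      ← Category.assoc (A ◁ _), whiskerLeft_comp, Category.assoc, ← Category.assoc,
      Preadditive.IsIso.comp_right_eq_zero, ← tensorHom_def'] at hr
    refine ⟨r + r', ?_⟩
    rw [pr_tensor, pr_add b, Nat.add_comm r r', pr_add b', ← tensorHom_comp_tensorHom,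
      whiskerLeft_comp, ← Category.assoc, hr, zero_comp]

end Vale.Agent.P236Z.Mod
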