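import Vale.Agent.P236Z.Mod.Hom
import Vale.Agent.P236Z.Mod.Gen
import Vale.Agent.P236Z.Mod.Aut
import Vale.Agent.P251.Z.KMU
import Mathlib.RingTheory.Localization.Defs

/-!
# P236, block MOD: the kernel of the folding map in `K`-homology
-/

open CategoryTheory MonoidalCategory Limits Pretriangulated
open Vale.Agent.P251 Vale.Agent.P251.T Vale.Agent.P251.M Vale.Agent.P251.S Vale.Agent.P251.F
  Vale.Agent.P251.I Vale.Agent.P251.X Vale.Agent.P236Z.Cat

set_option linter.unusedSectionVars false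

noncomputable section
namespace Vale.Agent.P236Z.Mod

instance : Fact (Nat.Prime 3) := ⟨Nat.prime_three⟩

/-- a strict automorphism which is killed -/
theorem aut_eq_one {B : Type} [CommRing B] (F : Law B) (a : InvSeries B) (v' : B)
    (hF : ∀ i < 6, vv 3 i F = 0) (ha : a • F = F) (h1 : a.c 0 = 1) (hv : vv 3 6 F * v' = 1)
    (hu : ∀ n, IsUnit (1 - v' ^ (n + 1) * a.c (n + 1) ^ 728)) : a = 1 := by
  have key : ∀ n k, 0 < k → k < n + 1 → a.c k = 0 := fun n => by
    induction n with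
    | zero => intro k h0 h1; omega
    | succ n ih =>
      intro k h0 hk
      rcases Nat.lt_succ_iff_lt_or_eq.1 hk with h | rfl
      · exact ih k h0 h
      · have h2 := aut B 3 6 F a (n + 1) (by norm_num) hF ha h1 h0 ih
        refine (hu n).mul_left_eq_zero.1 ?_
        have h3 : (vv 3 6 F * v') ^ (n + 2) = 1 := by rw [hv, one_pow]
        linear_combination v' ^ (n + 2) * h2 - a.c (n + 1) * h3 +
          v' ^ (n + 1) * a.c (n + 1) ^ 729 * hv
  refine InvSeries.ext_c fun n => ?_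
  rcases n with _ | n
  · rw [h1, InvSeries.c_zero_one]
  · rw [key (n + 1) (n + 1) n.succ_pos (Nat.lt_succ_self _), InvSeries.c_one_succ]

variable {T : Type 1} [Category.{0} T] [Preadditive T] [HasZeroObject T]
    [HasShift T ℤ] [∀ n : ℤ, (shiftFunctor T n).Additive] [Pretriangulated T] [IsTriangulated T]
    [MonoidalCategory T] [SymmetricCategory T] [TensorTriangulated T] [MonoidalClosed T]
    [HasCoproducts.{0} T] [HasProducts.{0} T] [StableCat T] {D : MUData T} (P : EDat D)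

theorem lawOf_comp {N N' : T} [MonObj N] [IsCommMonObj N] [MonObj N'] [IsCommMonObj N']
    (a : D.R ⟶ N) [IsMonHom a] (f : N ⟶ N') [IsMonHom f] :
    lawOf (a ≫ f) = (lawOf a).map (HRing.map f) := by
  rw [lawOf, lawOf, Law.map_map, HRing.map_comp]

theorem three_mem : (3 : HRing (stdEven T) P.E) ∈ Ih 3 6 (lawOf P.uE) := by
  have h := vv_mem_Ih (p := 3) (h := 6) (i := 0) (by norm_num) (lawOf P.uE)
  rwa [vv_zero] at h

theorem map_mem (r : P.E ⟶ P.E) [IsMonHom r] {x : HRing (stdEven T) P.E}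
    (hx : x ∈ Ih 3 6 (lawOf P.uE)) : HRing.map r x ∈ Ih 3 6 (lawOf P.uE) := by
  rw [← Ih_smul 3 6 _ (sIso D P.uE (P.uE ≫ r)), sIso_smul, lawOf_comp, Ih_map]
  exact Ideal.mem_map_of_mem _ hx

section K

variable {A : T} [MonObj A] [IsCommMonObj A] (κ : P.K.K ⟶ A) [IsMonHom κ] (a : P.E ⟶ A)
  [IsMonHom a]

theorem vv_κ {i : ℕ} (hi : i < 6) : vv 3 i (lawOf (P.K.φ ≫ κ)) = 0 := by
  rw [lawOf_comp, vv_map, P.K.vv_lt i hi, map_zero]

include κ in
theorem vv_a {i : ℕ} (hi : i < 6) : HRing.map a (vv 3 i (lawOf P.uE)) = 0 := by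
  rw [← vv_map, ← lawOf_comp, ← sIso_smul D (P.K.φ ≫ κ)]
  exact (vv_smul_of_zero 3 6 _ _ fun i hi => vv_κ P κ hi).1 i hi

theorem vv6_a : HRing.map a (vv 3 6 (lawOf P.uE)) = vv 3 6 (lawOf (P.K.φ ≫ κ)) := by
  have h := (vv_smul_of_zero 3 6 _ (sIso D (P.K.φ ≫ κ) (P.uE ≫ a)) fun i hi => vv_κ P κ hi).2
  rwa [sIso_c0, one_pow, mul_one, one_mul, sIso_smul, lawOf_comp, vv_map] at h

include κ in
theorem map_I {x : HRing (stdEven T) P.E} (hx : x ∈ Ih 3 6 (lawOf P.uE)) : HRing.map a x = 0 := by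
  have h : Ih 3 6 (lawOf P.uE) ≤ RingHom.ker (HRing.map a) := Ideal.span_le.2 (by
    rintro _ ⟨i, hi, rfl⟩
    exact vv_a P κ a hi)
  exact h hx

include κ in
theorem map_ext (a' : P.E ⟶ A) [IsMonHom a'] {B : Type} [CommRing B] (ψ : HRing (stdEven T) A →+* B)
    (h : ψ (HRing.map a P.U.val) = ψ (HRing.map a' P.U.val)) :
    ψ.comp (HRing.map a) = ψ.comp (HRing.map a') := by
  refine HRing.ringHom_ext fun n x => ?_
  obtain ⟨c, k, hc⟩ := P.int n x
  have h1 := map_I P κ a hc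
  have h2 := map_I P κ a' hc
  rw [map_sub, sub_eq_zero] at h1 h2
  have h3 : Units.map (ψ.comp (HRing.map a)).toMonoidHom P.U =
      Units.map (ψ.comp (HRing.map a')).toMonoidHom P.U := Units.ext h
  have h4 := congrArg (fun u : Bˣ => (u ^ k).val) h3
  simp only [← map_zpow, Units.coe_map] at h4
  rw [RingHom.comp_apply, RingHom.comp_apply, h1, h2]
  simp only [map_mul, map_intCast]
  exact congrArg _ h4

include κ in
theorem pow_U (a' : P.E ⟶ A) [IsMonHom a'] {c : ℤ} {N : ℕ}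
    (hc : vv 3 6 (lawOf P.uE) - c * P.U.val ^ N ∈ Ih 3 6 (lawOf P.uE)) :
    (HRing.map a P.U.val * HRing.map a' P.U.inv) ^ N = 1 := by
  have h1 := map_I P κ a hc
  have h2 := map_I P κ a' hc
  rw [map_sub, sub_eq_zero, vv6_a P κ, map_mul, map_intCast, map_pow] at h1 h2
  have hu : IsUnit (c : HRing (stdEven T) A) := by
    have h3 : IsUnit (vv 3 6 (lawOf (P.K.φ ≫ κ))) := by
      rw [lawOf_comp, vv_map]; exact P.K.vv_unit.map _
    rw [h1] at h3
    exact isUnit_of_mul_isUnit_left h3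
  rw [mul_pow, hu.mul_left_cancel (h1.symm.trans h2), ← mul_pow, ← map_mul, P.U.val_inv, map_one,
    one_pow]

end K

theorem loc {W : T} [MonObj W] [IsCommMonObj W] (j : ℕ → (P.E ⟶ W)) [∀ i, IsMonHom (j i)]
    (m : W ⟶ P.E) [IsMonHom m] (h0 : j 0 ≫ m = 𝟙 _)
    (hU : ∀ i, HRing.map (j i ≫ m) P.U.val - P.U.val ∈ Ih 3 6 (lawOf P.uE))
    (hG : Gen D P.K.φ P.uE j) : Loc P.K.K m := by
  obtain ⟨c, N, hN, hc⟩ := P.v6
  obtain ⟨d, hd⟩ := P.U_hom
  obtain ⟨V', hV'⟩ := P.v6_unit.exists_right_inv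
  have hUh : Hm d P.U.val := hd
  have hUi : Hm (-d) P.U.inv := hUh.inv P.U.val_inv (add_neg_cancel d)
  have hV : Hm (-728) V' := Hm.inv (n := 728) (by
    rw [lawOf, vv_map, D.vel_spec]; exact Hm.map ⟨_, rfl⟩ _) hV' (by norm_num)
  have hm : ∀ i x, HRing.map m (HRing.map (E := stdEven T) (j i) x) = HRing.map (j i ≫ m) x :=
    fun i x => by rw [HRing.map_comp]; rfl
  have hm0 : ∀ x, HRing.map m (HRing.map (E := stdEven T) (j 0) x) = x := fun x => by
    rw [hm, HRing_map_congr h0, HRing.map_id]; rfl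
  let A := fun i => sIso D (P.uE ≫ j i ≫ m ≫ j 0) (P.uE ≫ j i)
  let g : ℕ → ℕ → HRing (stdEven T) W := fun i n => match n with
    | 0 => N * ∑ k ∈ Finset.range N, (HRing.map (j i) P.U.val * HRing.map (j 0) P.U.inv) ^ k
    | n + 1 => 1 - HRing.map (j 0) V' ^ (n + 1) * (A i).c (n + 1) ^ 728
  have hg : ∀ i n, Hm 0 (g i n) := fun i n => by
    rcases n with _ | n
    · exact (Hm.nat N).mul (Hm.sum _ fun k => ((hUh.map _).mul (hUi.map _) (add_neg_cancel d)).pow
        k (mul_zero _)) (add_zero 0)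
    · exact Hm.one.sub (((hV.map _).pow (n + 1) rfl).mul
        (Hm.pow (sIso_hom D _ _ (n + 1)) 728 rfl) (by push_cast; ring))
  have hgu : ∀ i n, HRing.map m (g i n) - 1 ∈ Ih 3 6 (lawOf P.uE) := fun i n => by
    rcases n with _ | n
    · rw [← Ideal.Quotient.eq_zero_iff_mem]
      have h1 : Ideal.Quotient.mk (Ih 3 6 (lawOf P.uE)) (HRing.map (j i ≫ m) P.U.val) =
          Ideal.Quotient.mk _ P.U.val := Ideal.Quotient.eq.2 (hU i)
      have h2 : Ideal.Quotient.mk (Ih 3 6 (lawOf P.uE)) P.U.val * Ideal.Quotient.mk _ P.U.inv =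
          1 := by rw [← map_mul, P.U.val_inv, map_one]
      have h3 : (3 : HRing (stdEven T) P.E ⧸ Ih 3 6 (lawOf P.uE)) = 0 :=
        (map_ofNat (Ideal.Quotient.mk _) 3).symm.trans
          (Ideal.Quotient.eq_zero_iff_mem.2 (three_mem P))
      simp only [g, map_sub, map_mul, map_sum, map_pow, map_natCast, map_one, hm0]
      simp only [hm, h1, h2, one_pow, Finset.sum_const, Finset.card_range, nsmul_eq_mul, mul_one]
      obtain ⟨q, hq⟩ : ∃ q, N = 3 * q + 1 ∨ N = 3 * q + 2 := ⟨N / 3, by omega⟩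
      rcases hq with rfl | rfl
      · push_cast; linear_combination (3 * q ^ 2 + 2 * q :
          HRing (stdEven T) P.E ⧸ Ih 3 6 (lawOf P.uE)) * h3
      · push_cast; linear_combination (3 * q ^ 2 + 4 * q + 1 :
          HRing (stdEven T) P.E ⧸ Ih 3 6 (lawOf P.uE)) * h3
    · have h1 : HRing.map m ((A i).c (n + 1)) = 0 := by
        rw [← InvSeries.c_map, sIso_map, sIso_congr D (a' := P.uE ≫ j i ≫ m) (b' := P.uE ≫ j i ≫ m)
          (by simp only [Category.assoc, h0, Category.comp_id]) (Category.assoc _ _ _), sIso_self,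
          InvSeries.c_one_succ]
      simp only [g, map_sub, map_mul, map_pow, map_one, h1]
      simp
  choose f hf using fun i n => (hg i n).exists_s0
  refine ⟨fun q => f q.unpair.1 q.unpair.2, fun q => isUnit_of_s0 (E := stdEven T) ?_,
    fun k x hx => ?_⟩
  · rw [← map_s0, hf]
    obtain ⟨y, hy⟩ := (hg q.unpair.1 q.unpair.2).map m
    rw [hy]
    exact P.unit y (hy ▸ hgu _ _)
  obtain ⟨hodd, hgen⟩ := hG P.K.K (𝟙 _) P.K.odd
  rcases Int.even_or_odd' k with ⟨n, rfl | rfl⟩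
  swap
  · exact ⟨1, one_mem _, by rw [hodd n x, zero_comp]⟩
  let τ : Sc W →+* HRing (stdEven T) (P.K.K ⊗ W) := (HRing.map (inrM P.K.K W)).comp (s0 _ W)
  let M := (Submonoid.closure (Set.range fun q : ℕ => f q.unpair.1 q.unpair.2)).map τ
  let ψ := algebraMap (HRing (stdEven T) (P.K.K ⊗ W)) (Localization M)
  have hψ : ∀ i n, IsUnit (ψ (HRing.map (inrM P.K.K W) (g i n))) := fun i n =>
    IsLocalization.map_units (Localization M) (⟨_, f i n, Submonoid.subset_closure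
      ⟨Nat.pair i n, by simp⟩, congrArg (HRing.map (inrM P.K.K W)) (hf i n)⟩ : M)
  let σ := P.K.K ◁ (m ≫ j 0)
  have hr : ∀ i x, HRing.map (inrM P.K.K W) (HRing.map (E := stdEven T) (j i) x) =
      HRing.map (j i ≫ inrM P.K.K W) x := fun i x => by rw [HRing.map_comp]; rfl
  have hσ : ∀ i, (j i ≫ inrM P.K.K W) ≫ σ = (j i ≫ m) ≫ j 0 ≫ inrM P.K.K W := fun i => by
    simp only [σ, Category.assoc, inrM_whiskerLeft]
  have h1 : ∀ i, ψ.comp (HRing.map (j i ≫ inrM P.K.K W)) =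
      ψ.comp (HRing.map ((j i ≫ m) ≫ j 0 ≫ inrM P.K.K W)) := fun i => by
    refine map_ext P (inlM _ _) _ _ ψ ?_
    have h2 := map_I P (inlM _ _) (j 0 ≫ inrM P.K.K W) (hU i)
    rw [map_sub, sub_eq_zero] at h2
    rw [HRing.map_comp (j i ≫ m), RingHom.comp_apply, h2]
    have h3 := pow_U P (inlM _ _) (j i ≫ inrM P.K.K W) (j 0 ≫ inrM P.K.K W) hc
    have h4 := geom_sum_mul (HRing.map (j i ≫ inrM P.K.K W) P.U.val *
      HRing.map (j 0 ≫ inrM P.K.K W) P.U.inv) N
    have h5 := hψ i 0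
    simp only [g, map_mul (HRing.map (inrM P.K.K W)), map_sum (HRing.map (inrM P.K.K W)), map_pow,
      map_natCast (HRing.map (inrM P.K.K W)), hr] at h5
    have h6 : ψ (HRing.map (j i ≫ inrM P.K.K W) P.U.val *
        HRing.map (j 0 ≫ inrM P.K.K W) P.U.inv - 1) = 0 := by
      refine h5.mul_right_eq_zero.1 ?_
      rw [← map_mul, mul_assoc, h4, h3, sub_self, mul_zero, map_zero]
    have h7 : HRing.map (j 0 ≫ inrM P.K.K W) P.U.inv * HRing.map (j 0 ≫ inrM P.K.K W) P.U.val =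
        1 := by rw [← map_mul, P.U.inv_val, map_one]
    rw [map_sub, map_one, sub_eq_zero] at h6
    rw [← mul_one (HRing.map (j i ≫ inrM P.K.K W) P.U.val), ← h7, ← mul_assoc, map_mul, h6, one_mul]
  have h2 : ∀ i, InvSeries.map ψ (sIso D (P.uE ≫ (j i ≫ m) ≫ j 0 ≫ inrM P.K.K W)
      (P.uE ≫ j i ≫ inrM P.K.K W)) = 1 := fun i => by
    refine aut_eq_one ((lawOf P.uE).map (ψ.comp (HRing.map (j i ≫ inrM P.K.K W)))) _
      (ψ (HRing.map (j 0 ≫ inrM P.K.K W) V')) (fun l hl => ?_) ?_ ?_ ?_ fun n => ?_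
    · rw [vv_map, RingHom.comp_apply, vv_a P (inlM _ _) _ hl, map_zero]
    · conv_lhs => rw [h1, ← Law.map_map, ← lawOf_comp, ← InvSeries.map_smul, sIso_smul, lawOf_comp,
        Law.map_map]
    · rw [InvSeries.c_map, sIso_c0, map_one]
    · rw [vv_map, RingHom.comp_apply, vv6_a P (inlM _ _), ← vv6_a P (inlM _ _) (j 0 ≫ inrM P.K.K W),
        ← map_mul, ← map_mul, hV', map_one, map_one]
    · have h5 := hψ i (n + 1)
      simp only [g, A, map_sub, map_mul, map_pow, map_one, hr, ← InvSeries.c_map, sIso_map] at h5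
      rwa [sIso_congr D (a' := P.uE ≫ (j i ≫ m) ≫ j 0 ≫ inrM P.K.K W)
        (b' := P.uE ≫ j i ≫ inrM P.K.K W) (by simp only [Category.assoc])
        (Category.assoc _ _ _)] at h5
  have htop := hgen (RingHom.eqLocus ψ (ψ.comp (HRing.map σ))) (fun x => ?_) (fun i x => ?_)
    fun i n => ?_
  · let e := (stdEven T).sphIso (Iso.refl _) n
    have h3 : ψ (HRing.of _ _ n (e.hom ≫ x)) = ψ (HRing.map σ (HRing.of _ _ n (e.hom ≫ x))) :=
      htop.ge (Subring.mem_top _)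
    have h0 : x ≫ σ = 0 := by
      rw [show σ = _ from whiskerLeft_comp _ _ _, reassoc_of% hx, zero_comp]
    rw [HRing.map_of, Category.assoc, h0, comp_zero, of_zero, map_zero] at h3
    obtain ⟨⟨_, F, hF, rfl⟩, h4⟩ := (IsLocalization.map_eq_zero_iff M _ _).1 h3
    refine ⟨F, hF, ?_⟩
    replace h4 : HRing.map (inrM P.K.K W) (s0 _ W F) * _ = 0 := h4
    rw [map_s0] at h4
    have h5 := (of_mul_mb (F.hom ≫ inrM P.K.K W) n (e.hom ≫ x)).symm.trans
      (h4.trans (of_zero n).symm)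
    rw [Z.whiskerLeft_smul, ← cancel_epi e.hom, comp_zero, ← Category.assoc]
    exact DirectSum.of_injective (β := (stdEven T).Gr (P.K.K ⊗ W)) n h5
  · change ψ _ = ψ (HRing.map σ _)
    rw [← RingHom.comp_apply (HRing.map σ), ← HRing.map_comp,
      HRing_map_congr (inlM_whiskerLeft (m ≫ j 0))]
  · change ψ _ = ψ (HRing.map σ _)
    rw [← RingHom.comp_apply (HRing.map σ), ← HRing.map_comp, HRing_map_congr (hσ i)]
    exact congrArg (fun φ : _ →+* _ => φ x) (h1 i)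
  · change ψ _ = ψ (HRing.map σ _)
    rw [← InvSeries.c_map, ← InvSeries.c_map (HRing.map σ), ← InvSeries.c_map, sIso_map,
      ← sIso_mul D _ (P.uE ≫ (j i ≫ m) ≫ j 0 ≫ inrM P.K.K W), map_mul, h2, one_mul,
      sIso_congr D (a := _ ≫ σ) (a' := P.K.φ ≫ 𝟙 _ ≫ inlM P.K.K W)
        (b' := P.uE ≫ (j i ≫ m) ≫ j 0 ≫ inrM P.K.K W)
        (by simp only [σ, Category.assoc, inlM_whiskerLeft]) (by rw [Category.assoc, hσ])]

end Vale.Agent.P236Z.Mod
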