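import Vale.Agent.P236Z.Mod.Cop

/-!
# P236, block MOD: acyclic and local objects along a step, norms of elements
-/

open CategoryTheory MonoidalCategory Limits Pretriangulated
open Functor.LaxMonoidal Functor.OplaxMonoidal
open Vale.Agent.P251 Vale.Agent.P251.T Vale.Agent.P251.S Vale.Agent.P236Z.Cat
open scoped CategoryTheory.Obj

set_option linter.unusedSectionVars false

noncomputable section
namespace Vale.Agent.P236Z.Mod

variable {T₀ : TTC} {F : I.SpaceFunctor T₀.C} {T T' : TTC} {K : Type 1} [Category.{0} K]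
  [MonoidalCategory K] [SymmetricCategory K] {tK : Tw K} {u : K ⥤ I.FCat} {v : I.FCat ⥤ K}
  [v.Braided] {hv : ∀ X, (tK.h (v.obj X)).hom = 𝟙 _} {L : Lvl T₀ F T tK u v}
  {L' : Lvl T₀ F T' (Rt.tw tK) (Rt.U tK ⋙ u) (Rt.triv v hv)} (s : Step L L')

theorem reflIso {X Y : T'.C} (f : X ⟶ Y) (h : IsIso (s.U.F.map f)) : IsIso f := by
  obtain ⟨Z, g, d, hΔ⟩ := distinguished_cocone_triangle f
  exact (Triangle.isZero₃_iff_isIso₁ _ hΔ).1 (s.cons _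
    ((Triangle.isZero₃_iff_isIso₁ _ (s.U.F.map_distinguished _ hΔ)).2 h))

section K

variable {M : T.C} {M' : T'.C} (e : s.U.F.obj M' ≅ M)
include e

theorem keq {X Y : T'.C} (f : X ⟶ Y) (h : IsIso (M ◁ s.U.F.map f)) : IsIso (M' ◁ f) := by
  refine reflIso s _ ?_
  have h1 : s.U.F.map (M' ◁ f) = δ s.U.F M' X ≫ e.hom ▷ _ ≫ M ◁ s.U.F.map f ≫ e.inv ▷ _ ≫
      μ s.U.F M' Y := by
    rw [← whisker_exchange_assoc, hom_inv_whiskerRight_assoc, μ_natural_right,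
      Functor.Monoidal.δ_μ_assoc]
  rw [h1]
  infer_instance

theorem keq' {X Y : T'.C} (f : X ⟶ Y) (h : IsIso (M' ◁ f)) : IsIso (M ◁ s.U.F.map f) := by
  have h1 : M ◁ s.U.F.map f = e.inv ▷ _ ≫ μ s.U.F M' X ≫ s.U.F.map (M' ◁ f) ≫ δ s.U.F M' Y ≫
      e.hom ▷ _ := by
    rw [← μ_natural_right_assoc, Functor.Monoidal.μ_δ_assoc, whisker_exchange,
      inv_hom_whiskerRight_assoc]
  rw [h1]
  infer_instance

theorem isLocal_U {X : T'.C} (h : IsLocal M' X) : IsLocal M (s.U.F.obj X) := by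
  intro Z hZ f
  obtain ⟨hc⟩ := s.cofan Z
  have h1 : Acyclic M (s.U.F.obj (s.ind.obj Z)) := by
    rw [Acyclic, IsZero.iff_id_eq_zero]
    refine (isColimitOfPreserves (tensorLeft M) hc).hom_ext fun i => ?_
    exact IsZero.eq_of_src (show IsZero (M ⊗ Z) from hZ) _ _
  have h2 : Acyclic M' (s.ind.obj Z) := s.cons _
    (IsZero.of_iso h1 ((Functor.Monoidal.μIso s.U.F _ _).symm ≪≫ whiskerRightIso e _))
  have h3 : (s.adj.homEquiv _ _).symm f = 0 := h h2 _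
  rw [← (s.adj.homEquiv _ _).apply_symm_apply f, h3, Adjunction.homEquiv_unit, Functor.map_zero,
    comp_zero]

end K

theorem kcol_N {T₁ : TTC} [StableCat T₁.C] (V : T.C ⥤ T₁.C) [V.Monoidal] {M : T₁.C} {A B : T.C}
    {b : ℕ → (A ⟶ A)} {q : ℕ → (A ⟶ B)}
    (h : KCol M (fun n => V.map (b n)) (fun n => V.map (q n))) :
    KCol M (fun n => V.map (s.U.F.map (s.N.map (b n))))
      (fun n => V.map (s.U.F.map (s.N.map (q n)))) := by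
  have key : ∀ {X Y : T.C} (f : X ⟶ Y), (V.map f ⊗ₘ V.map f ⊗ₘ V.map f) ≫
      V.obj Y ◁ μ V Y Y ≫ μ V Y (Y ⊗ Y) ≫ V.map (nu s Y).inv =
      (V.obj X ◁ μ V X X ≫ μ V X (X ⊗ X) ≫ V.map (nu s X).inv) ≫
        V.map (s.U.F.map (s.N.map f)) := fun {X Y} f => by
    have h1 : (nu s X).inv ≫ s.U.F.map (s.N.map f) = (f ⊗ₘ f ⊗ₘ f) ≫ (nu s Y).inv := by
      rw [Iso.inv_comp_eq, ← nu_nat_assoc, Iso.hom_inv_id, Category.comp_id]
    simp only [Category.assoc]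
    rw [← V.map_comp, h1, V.map_comp, ← μ_natural_assoc]
    simp only [← id_tensorHom, tensorHom_comp_tensorHom_assoc, Category.comp_id, Category.id_comp,
      μ_natural]
  let e : ∀ X : T.C, V.obj X ⊗ V.obj X ⊗ V.obj X ≅ V.obj (s.U.F.obj (s.N.obj X)) := fun X =>
    whiskerLeftIso _ (Functor.Monoidal.μIso V X X) ≪≫ Functor.Monoidal.μIso V X (X ⊗ X) ≪≫
      V.mapIso (nu s X).symm
  exact (h.tensor (h.tensor h)).of_iso (e A) (e B) (fun n => key (b n)) (fun n => key (q n))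

theorem kcol_tensor {T₁ : TTC} [StableCat T₁.C] (V : T.C ⥤ T₁.C) [V.Monoidal] {M : T₁.C}
    {A B : T'.C} {b : ℕ → (A ⟶ A)} {q : ℕ → (A ⟶ B)}
    (h : KCol M (fun n => V.map (s.U.F.map (b n))) (fun n => V.map (s.U.F.map (q n)))) :
    KCol M (fun n => V.map (s.U.F.map (b n ⊗ₘ b n))) (fun n => V.map (s.U.F.map (q n ⊗ₘ q n))) := by
  have key : ∀ {X Y : T'.C} (f : X ⟶ Y), (V.map (s.U.F.map f) ⊗ₘ V.map (s.U.F.map f)) ≫
      μ V _ _ ≫ V.map (μ s.U.F Y Y) =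
      (μ V _ _ ≫ V.map (μ s.U.F X X)) ≫ V.map (s.U.F.map (f ⊗ₘ f)) := fun {X Y} f => by
    rw [μ_natural_assoc, Category.assoc, ← V.map_comp, ← V.map_comp, μ_natural]
  let e : ∀ X : T'.C, V.obj (s.U.F.obj X) ⊗ V.obj (s.U.F.obj X) ≅ V.obj (s.U.F.obj (X ⊗ X)) :=
    fun X => Functor.Monoidal.μIso V _ _ ≪≫ V.mapIso (Functor.Monoidal.μIso s.U.F X X)
  exact (h.tensor h).of_iso (e A) (e B) (fun n => key (b n)) (fun n => key (q n))

theorem el_comp {C C' : Type*} [Category C] [MonoidalCategory C] [Category C']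
    [MonoidalCategory C'] (G : C ⥤ C') [G.LaxMonoidal] {R R' : C} (a : 𝟙_ C ⟶ R) (f : R ⟶ R') :
    el G (a ≫ f) = el G a ≫ G.map f := by
  rw [el, el, G.map_comp, Category.assoc]

theorem el_γ {R : T'.C} (a : 𝟙_ T'.C ⟶ R) : el s.U.F a ≫ s.γ R = el s.U.F a := by
  rw [← el_comp, L'.t.nat, L'.t.one, Category.id_comp]

theorem el_nm {R : T'.C} [MonObj R] {nm : s.N.obj (s.U.F.obj R) ⟶ R}
    (h : s.U.F.map nm = s.ν.hom.app _ ≫ (𝟙 _ ⊗ₘ s.γ R ⊗ₘ (s.γ R ≫ s.γ R)) ≫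
      Step.mul3 (s.U.F.obj R)) (x : 𝟙_ T.C ⟶ s.U.F.obj R) :
    el s.U.F (el s.N x ≫ nm) = scMul x (scMul (x ≫ s.γ R) (x ≫ s.γ R ≫ s.γ R)) := by
  rw [el_comp, h, el, el, Functor.map_comp, Category.assoc, Category.assoc]
  erw [nu_nat_assoc s x, nu_unit_assoc s]
  simp only [scMul, Step.mul3, ← id_tensorHom, tensorHom_comp_tensorHom_assoc, Category.comp_id,
    Category.id_comp]

theorem map_mb_nm {R : T'.C} [MonObj R] [IsCommMonObj R] {nm : s.N.obj (s.U.F.obj R) ⟶ R}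
    (h : s.U.F.map nm = s.ν.hom.app _ ≫ (𝟙 _ ⊗ₘ s.γ R ⊗ₘ (s.γ R ≫ s.γ R)) ≫
      Step.mul3 (s.U.F.obj R)) (a : 𝟙_ T'.C ⟶ R) :
    s.U.F.map (mb (el s.N (el s.U.F a) ≫ nm)) = s.U.F.map (mb a ≫ mb a ≫ mb a) := by
  rw [map_mb, el_nm s h, ← Category.assoc, el_γ, el_γ, mb, ModStr.smul_mul', ModStr.smul_mul',
    Functor.map_comp, Functor.map_comp, map_mb]

theorem N_mb_nm {R : T'.C} [MonObj R] (nm : s.N.obj (s.U.F.obj R) ⟶ R) [IsMonHom nm]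
    (a : 𝟙_ T'.C ⟶ R) :
    s.N.map (s.U.F.map (mb a)) ≫ nm = nm ≫ mb (el s.N (el s.U.F a) ≫ nm) := by
  rw [map_mb, map_mb, mb_comp]

/-- a norm map for a threefold coproduct -/
theorem exists_nm {A P : T'.C} [MonObj A] [IsCommMonObj A] [MonObj P] [IsCommMonObj P]
    {i₀ i₁ i₂ : A ⟶ P} (hc : IsCop3 i₀ i₁ i₂) {nm : s.N.obj (s.U.F.obj A) ⟶ A}
    (h : s.IsNm A nm) : ∃ nm' : s.N.obj (s.U.F.obj P) ⟶ P, IsMonHom nm' ∧
      s.U.F.map nm' = s.ν.hom.app _ ≫ (𝟙 _ ⊗ₘ s.γ P ⊗ₘ (s.γ P ≫ s.γ P)) ≫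
        Step.mul3 (s.U.F.obj P) ∧
      s.N.map (s.U.F.map i₀) ≫ nm' = nm ≫ i₀ ∧ s.N.map (s.U.F.map i₁) ≫ nm' = nm ≫ i₁ := by
  have := hc.m₀
  have := hc.m₁
  have := hc.m₂
  have := h.mon
  obtain ⟨f, hf, h0, h1, h2⟩ := ((hc.map s.U.F).map s.N).exists_desc (nm ≫ i₀) (nm ≫ i₁) (nm ≫ i₂)
  refine ⟨f, hf, ?_, h0, h1⟩
  have key : ∀ (i : A ⟶ P) [IsMonHom i], s.N.map (s.U.F.map i) ≫ f = nm ≫ i →
      s.U.F.map (s.N.map (s.U.F.map i)) ≫ s.U.F.map f = s.U.F.map (s.N.map (s.U.F.map i)) ≫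
        (nu s _).hom ≫ (𝟙 _ ⊗ₘ s.γ P ⊗ₘ (s.γ P ≫ s.γ P)) ≫ Step.mul3 (s.U.F.obj P) := by
    intro i _ hi
    rw [← s.U.F.map_comp, hi, s.U.F.map_comp, h.res, nu_nat_assoc, Category.assoc, Category.assoc,
      tens_mul3_comp, tensorHom_comp_tensorHom_assoc, tensorHom_comp_tensorHom]
    simp only [Category.assoc, γ_nat, γ_nat_assoc, Category.id_comp, Category.comp_id]
    rfl
  have hm : IsMonHom ((nu s _).hom ≫ (𝟙 _ ⊗ₘ s.γ P ⊗ₘ (s.γ P ≫ s.γ P)) ≫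
      Step.mul3 (s.U.F.obj P)) := by
    rw [mul3_eq]; infer_instance
  exact (((hc.map s.U.F).map s.N).map s.U.F).hom_ext (g := (nu s _).hom ≫ _) (key _ h0) (key _ h1)
    (key _ h2)

end Vale.Agent.P236Z.Mod
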