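import Vale.Agent.P236Z.Mod.Col
import Vale.Agent.P236Z.Mod.Stp

/-!
# P236, block MOD: the localized telescope
-/

open CategoryTheory MonoidalCategory Limits Pretriangulated
open Functor.LaxMonoidal Functor.OplaxMonoidal
open Vale.Agent.P251 Vale.Agent.P251.T Vale.Agent.P251.S Vale.Agent.P236Z.Cat
open scoped CategoryTheory.Obj

set_option linter.unusedSectionVars false

noncomputable section
namespace Vale.Agent.P236Z.Mod

theorem el_scMul {C C' : Type*} [Category C] [MonoidalCategory C] [Category C']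
    [MonoidalCategory C'] (G : C ⥤ C') [G.Monoidal] {R : C} [MonObj R] (a b : 𝟙_ C ⟶ R) :
    el G (scMul a b) = scMul (el G a) (el G b) := by
  simp only [el, scMul, Functor.obj.μ_def, G.map_comp, ← tensorHom_comp_tensorHom, Category.assoc,
    μ_natural_assoc]
  rw [← left_unitality_inv_assoc, tensorHom_def'_assoc, leftUnitor_inv_naturality_assoc]

variable (W : Tower) (K : W.T₀.C)

/-- `K` with the trivial action of `C₃` -/
abbrev K₁ : W.T₁.C := W.L₁.tv.F.obj K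

/-- `K` with the trivial action of `C₉` -/
abbrev K₂ : W.T₂.C := W.L₂.tv.F.obj K

/-- the restriction of `K₁` -/
def e₁ : W.s₁.U.F.obj (K₁ W K) ≅ K := W.s₁.tvU.app K

/-- the restriction of `K₂` -/
def e₂ : W.s₂.U.F.obj (K₂ W K) ≅ K₁ W K := W.s₂.tvU.app K

theorem det₁ : Det W.s₁.U.F K (K₁ W K) := ⟨reflIso W.s₁, keq W.s₁ (e₁ W K)⟩

theorem det₂ : Det (W.s₂.U.F ⋙ W.s₁.U.F) K (K₂ W K) :=
  ⟨fun f h => reflIso W.s₂ f (reflIso W.s₁ _ h),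
    fun f h => keq W.s₂ (e₂ W K) f (keq W.s₁ (e₁ W K) _ h)⟩

variable {W K}

theorem exists_pres {E : W.T₀.C} [MonObj E] [IsCommMonObj E] (hE : IsLocal K E) {Y : W.T₂.C}
    [MonObj Y] [IsCommMonObj Y] (m : W.s₁.U.F.obj (W.s₂.U.F.obj Y) ⟶ E) [IsMonHom m]
    (hs : ∃ s : E ⟶ _, s ≫ m = 𝟙 E) (hL : Loc K m) (ρ : E ⟶ E) [IsMonHom ρ]
    (hρ : W.s₁.U.F.map (W.s₂.γ Y) ≫ m = m ≫ ρ)
    (nm₂ : W.s₂.N.obj (W.s₂.U.F.obj Y) ⟶ Y)
    (h₂ : W.s₂.U.F.map nm₂ = W.s₂.ν.hom.app _ ≫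
      (𝟙 _ ⊗ₘ W.s₂.γ Y ⊗ₘ (W.s₂.γ Y ≫ W.s₂.γ Y)) ≫ Step.mul3 (W.s₂.U.F.obj Y))
    (nm₁ : W.s₁.N.obj (W.s₁.U.F.obj (W.s₂.U.F.obj Y)) ⟶ W.s₂.U.F.obj Y)
    (h₁ : W.s₁.U.F.map nm₁ = W.s₁.ν.hom.app _ ≫
      (𝟙 _ ⊗ₘ W.s₁.γ _ ⊗ₘ (W.s₁.γ _ ≫ W.s₁.γ _)) ≫ Step.mul3 (W.s₁.U.F.obj (W.s₂.U.F.obj Y))) :
    ∃ (X : W.T₂.C) (a : ℕ → (𝟙_ W.T₂.C ⟶ Y)) (ι : ℕ → (Y ⟶ X))
      (e : W.s₁.U.F.obj (W.s₂.U.F.obj X) ≅ E),
      Pres (W.s₂.U.F ⋙ W.s₁.U.F) K (K₂ W K) Y X a ι ∧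
      W.s₁.U.F.map (W.s₂.U.F.map (ι 0)) ≫ e.hom = m ∧
      ∀ n, Good (W.s₂.U.F ⋙ W.s₁.U.F) (ι 0) (mb (a n)) := by
  obtain ⟨f, hfu, hf⟩ := hL
  let g := W.s₁.U.F.map (W.s₂.γ Y)
  have hg : ∀ y : Sc (W.s₁.U.F.obj (W.s₂.U.F.obj Y)), IsUnit (Sc.map m y) →
      IsUnit (Sc.map m (Sc.map g y)) := fun y hy => by
    have h : Sc.map m (Sc.map g y) = Sc.map ρ (Sc.map m y) := by
      change (y.hom ≫ g) ≫ m = (y.hom ≫ m) ≫ ρ
      rw [Category.assoc, Category.assoc, hρ]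
    rw [h]
    exact hy.map _
  have hγ : W.s₁.γ (W.s₂.U.F.obj Y) = g ≫ g ≫ g := by
    rw [Step.γ, ← γ_cube, Functor.map_comp, Functor.map_comp]
  -- the norm of an element
  have hN : ∀ y : Sc (W.s₁.U.F.obj (W.s₂.U.F.obj Y)), IsUnit (Sc.map m y) →
      ∃ (a : 𝟙_ W.T₂.C ⟶ Y), y ∣ Sc.of (el W.s₁.U.F (el W.s₂.U.F a)) ∧
        IsUnit (Sc.map m (Sc.of (el W.s₁.U.F (el W.s₂.U.F a)))) := fun y hy => by
    let x := el W.s₁.N y.hom ≫ nm₁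
    let z : Sc (W.s₁.U.F.obj (W.s₂.U.F.obj Y)) := Sc.of (el W.s₁.U.F x)
    have hz : z = y * (Sc.map g (Sc.map g (Sc.map g y)) *
        Sc.map g (Sc.map g (Sc.map g (Sc.map g (Sc.map g (Sc.map g y)))))) := by
      refine (el_nm W.s₁ h₁ y.hom).trans ?_
      rw [hγ]
      simp only [← Category.assoc]
      rfl
    have hzu : IsUnit (Sc.map m z) := by
      rw [hz, map_mul, map_mul]
      exact hy.mul ((hg _ (hg _ (hg _ hy))).mul (hg _ (hg _ (hg _ (hg _ (hg _ (hg _ hy)))))))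
    have ha : Sc.of (el W.s₁.U.F (el W.s₂.U.F (el W.s₂.N x ≫ nm₂))) =
        z * (Sc.map g z * Sc.map g (Sc.map g z)) := by
      rw [el_nm W.s₂ h₂, el_scMul, el_scMul, ← Category.assoc, el_comp _ (x ≫ _), el_comp _ x]
      rfl
    refine ⟨el W.s₂.N x ≫ nm₂, ?_, ?_⟩
    · rw [ha, hz]
      exact (dvd_mul_right _ _).mul_right _
    · rw [ha, map_mul, map_mul]
      exact hzu.mul ((hg _ hzu).mul (hg _ (hg _ hzu)))
  choose a had hau using fun n => hN (∏ k ∈ Finset.range (n + 1), f k) (by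
    rw [map_prod]
    exact IsUnit.prod_iff.2 fun k _ => hfu k)
  obtain ⟨p, hp0, hp⟩ := kcol_of_loc m hs hf (fun n => Sc.of (el W.s₁.U.F (el W.s₂.U.F (a n))))
    (fun n k hk => (Finset.dvd_prod_of_mem _ (Finset.mem_range.2 (Nat.lt_succ_of_le hk))).trans
      (had n)) hau
  have hb : ∀ n, W.s₁.U.F.map (W.s₂.U.F.map (mb (a n))) =
      mb (el W.s₁.U.F (el W.s₂.U.F (a n))) := fun n => by rw [map_mb, map_mb]
  replace hp : KCol K (fun n => W.s₁.U.F.map (W.s₂.U.F.map (mb (a n)))) p := by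
    rw [funext hb]; exact hp
  let U := tel (X := fun _ => Y) fun n => mb (a n)
  obtain ⟨B⟩ := nonempty_bLoc (K₂ W K) U.obj
  obtain ⟨l, hl⟩ := ((U.map W.s₂.U.F).map W.s₁.U.F).exists_desc p hp.w
  have hl1 : IsIso (K ◁ l) := isIso_tel hp.sec (hp.inj _ (KM.self K)) _ l hl
  have ht : IsIso (K ◁ W.s₁.U.F.map (W.s₂.U.F.map B.toLoc)) :=
    keq' W.s₁ (e₁ W K) _ (keq' W.s₂ (e₂ W K) _ B.isIso)
  obtain ⟨e, he⟩ := (hE.precomp_bijective _ ht).2 l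
  replace he : W.s₁.U.F.map (W.s₂.U.F.map B.toLoc) ≫ e = l := he
  have he1 : IsIso (K ◁ e) := by
    have : IsIso (K ◁ W.s₁.U.F.map (W.s₂.U.F.map B.toLoc) ≫ K ◁ e) := by
      rw [← whiskerLeft_comp, he]; exact hl1
    exact IsIso.of_isIso_comp_left (K ◁ W.s₁.U.F.map (W.s₂.U.F.map B.toLoc)) _
  have he2 : IsIso e := isIso_of_isLocal
    (isLocal_U W.s₁ (e₁ W K) (isLocal_U W.s₂ (e₂ W K) B.isLocal)) hE e he1
  have hι : ∀ n, W.s₁.U.F.map (W.s₂.U.F.map (U.ι n ≫ B.toLoc)) ≫ e = p n := fun n => by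
    rw [Functor.map_comp, Functor.map_comp, Category.assoc, he]
    exact hl n
  refine ⟨B.obj, a, fun n => U.ι n ≫ B.toLoc, asIso e, ⟨fun n => U.w_assoc n _,
    hp.of_iso (Iso.refl _) (asIso e).symm (fun n => (Category.comp_id _).trans
      (Category.id_comp _).symm) fun n => ?_, B.isLocal⟩, (hι 0).trans hp0, fun n => ?_⟩
  · rw [← hι, Category.assoc]
    exact (congrArg _ (asIso e).hom_inv_id).trans ((Category.comp_id _).trans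
      (Category.id_comp _).symm)
  · have := isIso_mb (hau n)
    refine ⟨e ≫ mb (Sc.map m (Sc.of (el W.s₁.U.F (el W.s₂.U.F (a n))))).hom ≫ inv e,
      inferInstance, ?_⟩
    change W.s₁.U.F.map (W.s₂.U.F.map (mb (a n))) ≫
      W.s₁.U.F.map (W.s₂.U.F.map (U.ι 0 ≫ B.toLoc)) =
      W.s₁.U.F.map (W.s₂.U.F.map (U.ι 0 ≫ B.toLoc)) ≫ _
    rw [← cancel_mono e, Category.assoc, Category.assoc, Category.assoc, Category.assoc,
      IsIso.inv_hom_id, Category.comp_id, reassoc_of% hι 0, hι, hp0, hb, mb_comp]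
    rfl

end Vale.Agent.P236Z.Mod
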